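import Mathlib

/-! The choice of parameters. -/

namespace Vale.Agent.P336

open Real

theorem asym_last {A : ℝ} {N s v : ℕ} (hA : 3000000 ≤ A) (h1 : exp A ≤ 65 * N)
    (h2 : 64 * (N : ℝ) ≤ exp A) (h3 : 128 * (s : ℝ) ≤ exp (A / 2) * A)
    (h4 : v * log A ≤ 3 / 40 * A) (hL : 1 ≤ log A) :
    ((2 * N + 1) ^ (v + 1) + 1) ^ (128 * s * (4096 * (v + 1) ^ 3) ^ v) ≤ 2 ^ N := by
  have hA0 : 0 < A := by linarith
  have hv : (v : ℝ) + 1 ≤ A := by nlinarith [Nat.cast_nonneg (α := ℝ) v]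
  have e1 : ((2 * N + 1 : ℝ)) ^ (v + 1) + 1 ≤ exp (2 * A ^ 2) := by
    have k1 : (2 * N + 1 : ℝ) ≤ exp A := by linarith [add_one_le_exp A]
    have k2 : (2 * N + 1 : ℝ) ^ (v + 1) ≤ exp (A ^ 2) := by
      refine (pow_le_pow_left₀ (by positivity) k1 _).trans ?_
      rw [← exp_nat_mul]
      exact exp_le_exp.2 (by push_cast; nlinarith)
    have k3 : 2 ≤ exp (A ^ 2) := by nlinarith [add_one_le_exp (A ^ 2)]
    rw [two_mul (A ^ 2), exp_add]
    nlinarith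
  have e2 : (4096 * (v + 1 : ℝ) ^ 3) ^ v ≤ exp (3 / 10 * A) := by
    have k1 : 4096 * (v + 1 : ℝ) ^ 3 ≤ exp (4 * log A) := by
      rw [show (4 : ℝ) = (4 : ℕ) from rfl, exp_nat_mul, exp_log hA0, pow_succ' A]
      exact mul_le_mul (by linarith) (pow_le_pow_left₀ (by positivity) hv 3) (by positivity) hA0.le
    refine (pow_le_pow_left₀ (by positivity) k1 _).trans ?_
    rw [← exp_nat_mul]
    exact exp_le_exp.2 (by linarith)
  have e3 : 200 * A ^ 3 ≤ exp (A / 5) := by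
    refine le_trans ?_ (pow_div_factorial_le_exp _ (by positivity) 4)
    rw [div_pow, pow_succ A 3]
    norm_num [Nat.factorial]
    nlinarith [mul_le_mul_of_nonneg_left hA (pow_pos hA0 3).le]
  have e4 : exp A = exp (A / 2) * exp (3 / 10 * A) * exp (A / 5) := by
    rw [← exp_add, ← exp_add]
    congr 1
    ring
  have e5 : ((128 * s * (4096 * (v + 1) ^ 3) ^ v : ℕ) : ℝ) ≤
      exp (A / 2) * A * exp (3 / 10 * A) := by
    push_cast
    exact mul_le_mul h3 e2 (by positivity) (by positivity)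
  generalize 128 * s * (4096 * (v + 1) ^ 3) ^ v = E at e5 ⊢
  have e6 : ((2 * N + 1 : ℝ) ^ (v + 1) + 1) ^ E ≤ 2 ^ N := by
    refine (pow_le_pow_left₀ (by positivity) e1 _).trans ?_
    rw [← exp_nat_mul, ← exp_log two_pos, ← exp_nat_mul, exp_log two_pos]
    refine exp_le_exp.2 ((mul_le_mul_of_nonneg_right e5 (by positivity)).trans ?_)
    have k1 := mul_le_mul_of_nonneg_left e3
      (show 0 ≤ exp (A / 2) * exp (3 / 10 * A) by positivity)
    have k2 := mul_le_mul_of_nonneg_left log_two_gt_d9.le (Nat.cast_nonneg (α := ℝ) N)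
    nlinarith [Nat.cast_nonneg (α := ℝ) N]
  exact_mod_cast e6

theorem params : ∃ n₀ : ℕ, ∀ n ≥ n₀, ∃ s w : ℕ,
    (1 / 2000 : ℝ) * √(n * Real.log n / Real.log (Real.log n)) ≤ s ∧ 13 ≤ s ∧ 1 ≤ w ∧
    64 * s ≤ n / 64 ∧ 25 * (n / 64) ≤ 16 ^ s ∧ 12 * (2 * s + 3) * (32 * s) ≤ w * (n / 64) ∧
    ((2 * (n / 64) + 1) ^ w + 1) ^ (128 * s * (4096 * w ^ 3) ^ (w - 1)) ≤ 2 ^ (n / 64) := by
  refine ⟨⌈exp 3000000⌉₊, fun n hn => ?_⟩
  have hn1 : exp 3000000 ≤ n := Nat.ceil_le.1 hn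
  have hn0 : (0 : ℝ) < n := (exp_pos _).trans_le hn1
  have hA : 3000000 ≤ log n := (le_log_iff_exp_le hn0).2 hn1
  have hN1 : (n : ℝ) < 64 * (n / 64 : ℕ) + 64 := by
    exact_mod_cast (by omega : n < 64 * (n / 64) + 64)
  have hN2 : 64 * ((n / 64 : ℕ) : ℝ) ≤ n := by
    exact_mod_cast (by omega : 64 * (n / 64) ≤ n)
  have hE := exp_log hn0
  generalize n / 64 = N at *
  generalize log n = A at *
  rw [← hE] at hN1 hN2 ⊢
  have hA0 : 0 < A := by linarith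
  have hL : 1 ≤ log A := (le_log_iff_exp_le hA0).2 (by linarith [exp_one_lt_d9])
  have hL' : log A ≤ A := (log_le_sub_one_of_pos hA0).trans (by linarith)
  have hr : exp A = exp (A / 2) ^ 2 := by rw [← exp_nat_mul]; congr 1; push_cast; ring
  have hr1 : A ^ 2 / 8 ≤ exp (A / 2) := by
    refine le_trans (le_of_eq ?_) (pow_div_factorial_le_exp _ (by positivity) 2)
    norm_num [Nat.factorial]
    ring
  have hN : exp A ≤ 65 * N := by linarith [add_one_le_exp A]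
  obtain ⟨y, hy⟩ : ∃ y, y = √(exp A * A / log A) := ⟨_, rfl⟩
  have hy2 : y ^ 2 * log A = exp A * A := by
    rw [hy, sq_sqrt (by positivity), div_mul_cancel₀ _ (by linarith)]
  have hy0 : 0 ≤ y := hy ▸ sqrt_nonneg _
  rw [← hy]
  have hr0 := exp_pos (A / 2)
  have h1 : exp (A / 2) ≤ y := by
    refine (pow_le_pow_iff_left₀ hr0.le hy0 two_ne_zero).1 (le_of_mul_le_mul_right ?_ hA0)
    rw [← hr, ← hy2]
    exact (mul_le_mul_of_nonneg_left hL' (sq_nonneg y))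
  have h2 : y ≤ exp (A / 2) * A := by
    refine (pow_le_pow_iff_left₀ hy0 (by positivity) two_ne_zero).1 ?_
    rw [mul_pow, ← hr]
    nlinarith [mul_le_mul_of_nonneg_left hL (sq_nonneg y),
      mul_le_mul_of_nonneg_left (show A ≤ A ^ 2 by nlinarith) (exp_pos A).le]
  have h3 : 20000 * A ≤ exp (A / 2) := by nlinarith
  have s1 := Nat.le_ceil (1 / 2000 * y)
  have s2 := (Nat.ceil_lt_add_one (show 0 ≤ 1 / 2000 * y by positivity)).le
  generalize ⌈1 / 2000 * y⌉₊ = s at s1 s2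
  have s3 : A ≤ s := by linarith
  have s4 : (s : ℝ) ≤ y / 1000 := by linarith
  have hN0 : 0 < N := Nat.cast_pos.1 (by linarith [exp_pos A] : (0 : ℝ) < N)
  have s5 : 13 ≤ s := by exact_mod_cast (by linarith : (13 : ℝ) ≤ s)
  refine ⟨s, 12 * (2 * s + 3) * (32 * s) / N + 1, s1, s5, Nat.le_add_left _ _, ?_, ?_,
    (Nat.lt_div_mul_add hN0).le.trans_eq (add_one_mul _ _).symm,
    asym_last hA hN hN2 (by linarith) ?_ hL⟩
  · exact_mod_cast (by nlinarith : 64 * (s : ℝ) ≤ N)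
  · have k1 : exp A ≤ 16 ^ s := (exp_le_exp.2 s3).trans (by
      rw [← exp_one_pow]
      exact pow_le_pow_left₀ (exp_pos _).le (by linarith [exp_one_lt_d9]) s)
    exact_mod_cast (by linarith [Nat.cast_nonneg (α := ℝ) N] : 25 * (N : ℝ) ≤ 16 ^ s)
  · have k1 : 12 * (2 * s + 3) * (32 * s) / N * N ≤ 1152 * s ^ 2 :=
      (Nat.div_mul_le_self _ _).trans (by nlinarith)
    generalize 12 * (2 * s + 3) * (32 * s) / N = v at k1 ⊢
    have k2 : (v : ℝ) * N ≤ 1152 * s ^ 2 := by exact_mod_cast k1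
    have k3 : (s : ℝ) ^ 2 ≤ (y / 1000) ^ 2 := pow_le_pow_left₀ (Nat.cast_nonneg s) s4 2
    have k4 : (v : ℝ) * exp A ≤ 65 * 1152 * (y / 1000) ^ 2 := by
      nlinarith [mul_le_mul_of_nonneg_left hN (Nat.cast_nonneg (α := ℝ) v)]
    refine le_of_mul_le_mul_right ?_ (exp_pos A)
    nlinarith [mul_le_mul_of_nonneg_right k4 (zero_le_one.trans hL), mul_pos (exp_pos A) hA0]

end Vale.Agent.P336
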