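import Mathlib

/-! Clauses, restrictions, discrepancy, and the bit-level hard function. -/

namespace Vale.Agent.P336

open Finset

/-- Literals. -/
abbrev Lit (N : ℕ) : Type := Fin N × Bool

/-- The point satisfies the clause. -/
def sat {N : ℕ} (x : Fin N → Bool) (C : Finset (Lit N)) : Prop := ∃ l ∈ C, x l.1 = l.2

instance {N : ℕ} (x : Fin N → Bool) (C : Finset (Lit N)) : Decidable (sat x C) :=
  inferInstanceAs (Decidable (∃ l ∈ C, x l.1 = l.2))

/-- The subcube of a restriction. -/
def cube {N : ℕ} (ρ : Fin N → Option Bool) : Finset (Fin N → Bool) :=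
  univ.filter fun x => ∀ i b, ρ i = some b → x i = b

/-- The free variables of a restriction. -/
def stars {N : ℕ} (ρ : Fin N → Option Bool) : Finset (Fin N) := univ.filter fun i => ρ i = none

/-- Discrepancy at most `η` on all CNFs of width `w` inside subcubes of dimension at most `m`. -/
def Disc {N : ℕ} (χ : (Fin N → Bool) → ℝ) (m w : ℕ) (η : ℝ) : Prop :=
  ∀ ρ : Fin N → Option Bool, (stars ρ).card ≤ m → ∀ ψ : Finset (Finset (Lit N)),
    (∀ C ∈ ψ, C.card ≤ w) → |∑ x ∈ (cube ρ).filter (fun x => ∀ C ∈ ψ, sat x C), χ x| ≤ η

/-- The sign of a bit. -/
def sg (b : Bool) : ℝ := if b then -1 else 1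

/-- Sum of bit vectors. -/
def xr (u v : List Bool) : List Bool := List.zipWith xor u v

/-- Multiplication by the generator, high digit first, where `h` is the reduction of the top
power. -/
def sh (h u : List Bool) : List Bool :=
  if u.headD false = true then xr (u ++ [false]).tail h else (u ++ [false]).tail

/-- Multiplication. -/
def ml (h u v : List Bool) : List Bool :=
  v.foldl (fun acc b => if b = true then xr (sh h acc) u else sh h acc) (u.map fun _ => false)

/-- The unit. -/
def on (h : List Bool) : List Bool := ((h.map fun _ => false) ++ [true]).tail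

/-- Powering by repeated squaring, high digit of the exponent first. -/
def pw (h a x : List Bool) : List Bool :=
  x.foldl (fun acc b => if b = true then ml h (ml h acc acc) a else ml h acc acc) (on h)

/-- Inner product modulo two. -/
def ip (u v : List Bool) : Bool := (List.zipWith and u v).foldl xor false

/-- The hard language. -/
def lang (w : List Bool) : Bool :=
  ip (pw ((w.drop (w.length / 64)).take (20 * (w.length / 64)))
      ((w.drop (21 * (w.length / 64))).take (20 * (w.length / 64))) (w.take (w.length / 64)))
    ((w.drop (41 * (w.length / 64))).take (20 * (w.length / 64)))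

end Vale.Agent.P336
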