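import Vale.Agent.P336.Basic

/-! The powering family has small bias. -/

namespace Vale.Agent.P336

open Finset Polynomial

/-- a bit as a ring element -/
def bias_bit (R : Type) [CommRing R] (b : Bool) : R := if b = true then 1 else 0

/-- value of a digit list, high digit first -/
def bias_val {R : Type} [CommRing R] (θ : R) : List Bool → R
  | [] => 0
  | c :: u => bias_bit R c * θ ^ u.length + bias_val θ u

/-- binary value -/
def bias_num : List Bool → ℕ
  | [] => 0
  | c :: u => (if c = true then 2 ^ u.length else 0) + bias_num u

theorem bias_num_lt (u : List Bool) : bias_num u < 2 ^ u.length := by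
  induction u with
  | nil => simp [bias_num]
  | cons c u ih =>
    simp only [bias_num, List.length_cons, pow_succ]
    split_ifs <;> omega

theorem bias_num_inj (u : List Bool) : ∀ v : List Bool, u.length = v.length →
    bias_num u = bias_num v → u = v := by
  induction u with
  | nil => intro v h _; exact (List.length_eq_zero_iff.1 h.symm).symm
  | cons c u ih =>
    intro v h h2
    cases v with
    | nil => simp at h
    | cons d v =>
      have h3 : u.length = v.length := by simpa using h
      have h4 := bias_num_lt u
      have h5 := bias_num_lt v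
      simp only [bias_num, h3] at h2
      rw [h3] at h4
      cases c <;> cases d <;> simp at h2
      · rw [ih v h3 h2]
      · omega
      · omega
      · rw [ih v h3 h2]

section Val

variable {R : Type} [CommRing R] (θ : R)

theorem bias_val_snoc (u : List Bool) (b : Bool) :
    bias_val θ (u ++ [b]) = bias_val θ u * θ + bias_bit R b := by
  induction u with
  | nil => simp [bias_val]
  | cons c u ih =>
    simp only [List.cons_append, bias_val, ih, List.length_append, List.length_singleton, pow_succ]
    ring

theorem bias_val_zeros (u : List Bool) : bias_val θ (u.map fun _ => false) = 0 := by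
  induction u with
  | nil => rfl
  | cons c u ih => simp only [List.map_cons, bias_val, ih, bias_bit]; simp

theorem bias_len_xr {u v : List Bool} (h : u.length = v.length) : (xr u v).length = u.length := by
  simp [xr, h]

theorem bias_bit_xor (h2 : (1 : R) + 1 = 0) (a b : Bool) :
    bias_bit R (xor a b) = bias_bit R a + bias_bit R b := by
  cases a <;> cases b <;> simp [bias_bit, h2]

theorem bias_val_xr (h2 : (1 : R) + 1 = 0) (u : List Bool) : ∀ v : List Bool, u.length = v.length →
    bias_val θ (xr u v) = bias_val θ u + bias_val θ v := by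
  induction u with
  | nil => intro v h; rw [List.length_eq_zero_iff.1 h.symm]; simp [xr, bias_val]
  | cons c u ih =>
    intro v h
    cases v with
    | nil => simp at h
    | cons d v =>
      have h3 : u.length = v.length := by simpa using h
      have e : xr (c :: u) (d :: v) = xor c d :: xr u v := rfl
      rw [e]
      simp only [bias_val]
      rw [ih v h3, bias_len_xr h3, bias_bit_xor h2, ← h3]
      ring

variable {θ} {l : ℕ} {h : List Bool}

theorem bias_sh (h2 : (1 : R) + 1 = 0) (hl : 1 ≤ l) (hh : h.length = l)
    (hv : bias_val θ h = θ ^ l) {u : List Bool} (hu : u.length = l) :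
    (sh h u).length = l ∧ bias_val θ (sh h u) = bias_val θ u * θ := by
  cases u with
  | nil => simp at hu; omega
  | cons c u =>
    have h3 : (u ++ [false]).length = l := by simpa using hu
    have h4 : u.length + 1 = l := by simpa using hu
    have h5 : bias_val θ (u ++ [false]) = bias_val θ u * θ := by
      rw [bias_val_snoc]; simp [bias_bit]
    cases c with
    | false =>
      have e : sh h (false :: u) = u ++ [false] := rfl
      rw [e, h5]
      exact ⟨h3, by simp [bias_val, bias_bit]⟩
    | true =>
      have e : sh h (true :: u) = xr (u ++ [false]) h := rfl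
      rw [e, bias_val_xr θ h2 _ _ (h3.trans hh.symm), bias_len_xr (h3.trans hh.symm), h5, hv, ← h4]
      refine ⟨h3.trans h4.symm, ?_⟩
      simp only [bias_val, bias_bit, if_true, pow_succ]
      ring

theorem bias_ml_aux (h2 : (1 : R) + 1 = 0) (hl : 1 ≤ l) (hh : h.length = l)
    (hv : bias_val θ h = θ ^ l) {u : List Bool} (hu : u.length = l) (v : List Bool) :
    ∀ acc : List Bool, acc.length = l →
      (v.foldl (fun acc b => if b = true then xr (sh h acc) u else sh h acc) acc).length = l ∧
      bias_val θ (v.foldl (fun acc b => if b = true then xr (sh h acc) u else sh h acc) acc) =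
        bias_val θ acc * θ ^ v.length + bias_val θ u * bias_val θ v := by
  induction v with
  | nil => intro acc ha; exact ⟨ha, by simp [bias_val]⟩
  | cons b v ih =>
    intro acc ha
    obtain ⟨s1, s2⟩ := bias_sh h2 hl hh hv ha
    rw [List.foldl_cons]
    cases b with
    | false =>
      obtain ⟨i1, i2⟩ := ih (sh h acc) s1
      rw [if_neg (by simp)]
      refine ⟨i1, ?_⟩
      rw [i2, s2]
      simp only [bias_val, bias_bit, List.length_cons, pow_succ]
      simp only [Bool.false_eq_true, if_false]
      ring
    | true =>
      have s3 := s1.trans hu.symm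
      obtain ⟨i1, i2⟩ := ih (xr (sh h acc) u) ((bias_len_xr s3).trans s1)
      rw [if_pos rfl]
      refine ⟨i1, ?_⟩
      rw [i2, bias_val_xr θ h2 _ _ s3, s2]
      simp only [bias_val, bias_bit, List.length_cons, pow_succ, if_true]
      ring

theorem bias_ml (h2 : (1 : R) + 1 = 0) (hl : 1 ≤ l) (hh : h.length = l)
    (hv : bias_val θ h = θ ^ l) {u : List Bool} (hu : u.length = l) (v : List Bool) :
    (ml h u v).length = l ∧ bias_val θ (ml h u v) = bias_val θ u * bias_val θ v := by
  obtain ⟨i1, i2⟩ := bias_ml_aux h2 hl hh hv hu v (u.map fun _ => false) (by simpa using hu)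
  refine ⟨i1, ?_⟩
  rw [bias_val_zeros, zero_mul, zero_add] at i2
  exact i2

theorem bias_on (hl : 1 ≤ l) (hh : h.length = l) :
    (on h).length = l ∧ bias_val θ (on h) = 1 := by
  cases h with
  | nil => simp at hh; omega
  | cons c h =>
    have e : on (c :: h) = (h.map fun _ => false) ++ [true] := rfl
    rw [e, bias_val_snoc, bias_val_zeros]
    exact ⟨by simpa using hh, by simp [bias_bit]⟩

theorem bias_pw_aux (h2 : (1 : R) + 1 = 0) (hl : 1 ≤ l) (hh : h.length = l)
    (hv : bias_val θ h = θ ^ l) (a x : List Bool) :
    ∀ acc : List Bool, acc.length = l →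
      (x.foldl (fun acc b => if b = true then ml h (ml h acc acc) a else ml h acc acc)
        acc).length = l ∧
      bias_val θ (x.foldl (fun acc b => if b = true then ml h (ml h acc acc) a else ml h acc acc)
        acc) = bias_val θ acc ^ 2 ^ x.length * bias_val θ a ^ bias_num x := by
  induction x with
  | nil => intro acc ha; exact ⟨ha, by simp [bias_num]⟩
  | cons b x ih =>
    intro acc ha
    obtain ⟨s1, s2⟩ := bias_ml h2 hl hh hv ha acc
    rw [List.foldl_cons]
    cases b with
    | false =>
      obtain ⟨i1, i2⟩ := ih (ml h acc acc) s1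
      rw [if_neg (by simp)]
      refine ⟨i1, ?_⟩
      rw [i2, s2, ← sq, ← pow_mul]
      simp only [bias_num, List.length_cons, Bool.false_eq_true, if_false, zero_add, pow_succ']
    | true =>
      obtain ⟨t1, t2⟩ := bias_ml h2 hl hh hv s1 a
      obtain ⟨i1, i2⟩ := ih (ml h (ml h acc acc) a) t1
      rw [if_pos rfl]
      refine ⟨i1, ?_⟩
      rw [i2, t2, s2, ← sq, mul_pow, ← pow_mul]
      simp only [bias_num, List.length_cons, if_true, pow_succ', pow_add, mul_assoc]

theorem bias_pw (h2 : (1 : R) + 1 = 0) (hl : 1 ≤ l) (hh : h.length = l)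
    (hv : bias_val θ h = θ ^ l) (a x : List Bool) :
    (pw h a x).length = l ∧ bias_val θ (pw h a x) = bias_val θ a ^ bias_num x := by
  obtain ⟨o1, o2⟩ := bias_on (θ := θ) hl hh
  obtain ⟨i1, i2⟩ := bias_pw_aux h2 hl hh hv a x (on h) o1
  refine ⟨i1, ?_⟩
  rw [o2, one_pow, one_mul] at i2
  exact i2

end Val

theorem bias_foldl (L : List Bool) : ∀ c : Bool, L.foldl xor c = xor c (L.foldl xor false) := by
  induction L with
  | nil => intro c; simp
  | cons d L ih =>
    intro c
    rw [List.foldl_cons, List.foldl_cons, ih (xor c d), ih (xor false d)]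
    cases c <;> cases d <;> simp

theorem bias_sg_xor (a b : Bool) : sg (xor a b) = sg a * sg b := by
  cases a <;> cases b <;> simp [sg]

theorem bias_ip_cons (c b : Bool) (u v : List Bool) :
    sg (ip (c :: u) (b :: v)) = sg (c && b) * sg (ip u v) := by
  unfold ip
  rw [List.zipWith_cons_cons, List.foldl_cons, bias_foldl, bias_sg_xor, Bool.false_xor]

theorem bias_ip_xr (u : List Bool) : ∀ v b : List Bool, u.length = v.length →
    sg (ip (xr u v) b) = sg (ip u b) * sg (ip v b) := by
  induction u with
  | nil => intro v b h; rw [List.length_eq_zero_iff.1 h.symm]; simp [xr, ip, sg]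
  | cons c u ih =>
    intro v b h
    cases v with
    | nil => simp at h
    | cons d v =>
      have h3 : u.length = v.length := by simpa using h
      have e : xr (c :: u) (d :: v) = xor c d :: xr u v := rfl
      cases b with
      | nil => simp [ip, sg]
      | cons b0 b =>
        rw [e, bias_ip_cons, bias_ip_cons, bias_ip_cons, ih v b h3]
        have : sg (xor c d && b0) = sg (c && b0) * sg (d && b0) := by
          cases c <;> cases d <;> cases b0 <;> simp [sg]
        rw [this]
        ring

theorem bias_ip_zeros (n : ℕ) : ∀ b : List Bool, sg (ip (List.replicate n false) b) = 1 := by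
  induction n with
  | zero => intro b; simp [ip, sg]
  | succ n ih =>
    intro b
    cases b with
    | nil => simp [ip, sg]
    | cons b0 b => rw [List.replicate_succ, bias_ip_cons, ih]; simp [sg]

theorem bias_combine {R : Type} [CommRing R] (θ : R) (h2 : (1 : R) + 1 = 0) {α : Type} {l : ℕ}
    (u : α → List Bool) (hu : ∀ x, (u x).length = l) (A : Finset α) :
    ∃ w : List Bool, w.length = l ∧ bias_val θ w = ∑ x ∈ A, bias_val θ (u x) ∧
      ∀ b, sg (ip w b) = ∏ x ∈ A, sg (ip (u x) b) := by
  classical
  induction A using Finset.induction_on with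
  | empty =>
    refine ⟨List.replicate l false, List.length_replicate, ?_, fun b => ?_⟩
    · have := bias_val_zeros θ (List.replicate l false)
      simpa using this
    · rw [bias_ip_zeros, Finset.prod_empty]
  | insert a A ha ih =>
    obtain ⟨w, w1, w2, w3⟩ := ih
    have h3 := (hu a).trans w1.symm
    refine ⟨xr (u a) w, (bias_len_xr h3).trans (hu a), ?_, fun b => ?_⟩
    · rw [bias_val_xr θ h2 _ _ h3, w2, Finset.sum_insert ha]
    · rw [bias_ip_xr _ _ _ h3, w3, Finset.prod_insert ha]

theorem bias_sum_zero {R : Type} [CommRing R] (θ : R) (l : ℕ) : ∀ w : List Bool, w.length = l →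
    bias_val θ w ≠ 0 → ∑ b : Fin l → Bool, sg (ip w (List.ofFn b)) = 0 := by
  induction l with
  | zero => intro w h h0; rw [List.length_eq_zero_iff.1 h] at h0; exact absurd rfl h0
  | succ l ih =>
    intro w h h0
    cases w with
    | nil => simp at h
    | cons c w =>
      have h3 : w.length = l := by simpa using h
      rw [← (Fin.consEquiv fun _ : Fin (l + 1) => Bool).sum_comp, Fintype.sum_prod_type]
      have e : ∀ (b0 : Bool) (b : Fin l → Bool),
          sg (ip (c :: w) (List.ofFn ((Fin.consEquiv fun _ : Fin (l + 1) => Bool) (b0, b)))) =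
            sg (c && b0) * sg (ip w (List.ofFn b)) := fun b0 b => by
        rw [← bias_ip_cons, List.ofFn_succ]
        rfl
      simp only [e, ← Finset.mul_sum]
      rw [← Finset.sum_mul]
      cases c with
      | false =>
        rw [ih w h3 (by simpa [bias_val, bias_bit] using h0), mul_zero]
      | true => simp [sg]

theorem bias_abs_sg (b : Bool) : |sg b| = 1 := by cases b <;> simp [sg]

theorem bias_aeval {K : Type} [Field K] [Algebra (ZMod 2) K] (θ : K) (u : List Bool) :
    aeval θ (bias_val (X : (ZMod 2)[X]) u) = bias_val θ u := by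
  induction u with
  | nil => simp [bias_val]
  | cons c u ih =>
    simp only [bias_val, map_add, map_mul, map_pow, aeval_X, ih]
    cases c <;> simp [bias_bit]

theorem bias_degree (u : List Bool) :
    (bias_val (X : (ZMod 2)[X]) u).degree < (u.length : WithBot ℕ) := by
  induction u with
  | nil => simp [bias_val]
  | cons c u ih =>
    have h1 : (u.length : WithBot ℕ) < ((c :: u).length : WithBot ℕ) := by
      rw [List.length_cons]; exact_mod_cast Nat.lt_succ_self _
    simp only [bias_val]
    refine (degree_add_le _ _).trans_lt (max_lt ?_ (ih.trans h1))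
    cases c with
    | false => simp [bias_bit]
    | true =>
      simp only [bias_bit, if_true, one_mul, degree_X_pow]
      exact h1

theorem bias_val_inj {K : Type} [Field K] [Algebra (ZMod 2) K] (h2 : (1 : K) + 1 = 0)
    (pb : PowerBasis (ZMod 2) K) (u : List Bool) : ∀ v : List Bool, u.length = v.length →
    u.length ≤ pb.dim → bias_val pb.gen u = bias_val pb.gen v → u = v := by
  have key : ∀ u v : List Bool, u.length = v.length → u.length < pb.dim →
      pb.gen ^ u.length + bias_val pb.gen u ≠ bias_val pb.gen v := by
    intro u v h hd he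
    have d1 : (bias_val (X : (ZMod 2)[X]) u - bias_val X v).degree <
        ((X : (ZMod 2)[X]) ^ u.length).degree := by
      rw [degree_X_pow]
      exact (degree_sub_le _ _).trans_lt (max_lt (bias_degree u) (h ▸ bias_degree v))
    have d2 := degree_add_eq_left_of_degree_lt d1
    rw [degree_X_pow] at d2
    have d3 := pb.dim_le_degree_of_root
      (p := X ^ u.length + (bias_val (X : (ZMod 2)[X]) u - bias_val X v))
      (fun h0 => by rw [h0] at d2; simp at d2)
      (by rw [map_add, map_sub, map_pow, aeval_X, bias_aeval, bias_aeval, ← he]; ring)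
    rw [d2] at d3
    have : pb.dim ≤ u.length := by exact_mod_cast d3
    omega
  induction u with
  | nil => intro v h _ _; exact (List.length_eq_zero_iff.1 h.symm).symm
  | cons c u ih =>
    intro v h hd he
    cases v with
    | nil => simp at h
    | cons d v =>
      have h3 : u.length = v.length := by simpa using h
      have h4 : u.length < pb.dim := by simpa using hd
      simp only [bias_val, ← h3] at he
      cases c <;> cases d
      · rw [ih v h3 h4.le (add_left_cancel he)]
      · refine absurd ?_ (key v u h3.symm (h3 ▸ h4))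
        rw [← h3]
        simpa [bias_bit] using he.symm
      · refine absurd ?_ (key u v h3 h4)
        simpa [bias_bit] using he
      · rw [ih v h3 h4.le (add_left_cancel he)]

theorem bias_roots {K : Type} [Field K] {N l : ℕ} (g : (Fin l → Bool) → K)
    (hg : Function.Injective g) (A : Finset (Fin N → Bool)) (hA : A.Nonempty)
    [DecidablePred fun a => ∑ x ∈ A, g a ^ bias_num (List.ofFn x) = 0] :
    (univ.filter fun a => ∑ x ∈ A, g a ^ bias_num (List.ofFn x) = 0).card ≤ 2 ^ N := by
  classical
  set p : K[X] := ∑ x ∈ A, X ^ bias_num (List.ofFn x) with hp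
  have p0 : p ≠ 0 := by
    obtain ⟨x0, hx0⟩ := hA
    intro h0
    have h1 : p.coeff (bias_num (List.ofFn x0)) = 1 := by
      rw [hp, finsetSum_coeff, Finset.sum_eq_single_of_mem x0 hx0]
      · simp
      · intro x _ hx
        rw [coeff_X_pow, if_neg]
        intro h
        exact hx (List.ofFn_injective (bias_num_inj _ _ (by simp) h)).symm
    rw [h0] at h1
    simp at h1
  have p1 : p.natDegree ≤ 2 ^ N := by
    refine natDegree_sum_le_of_forall_le _ _ fun x _ => ?_
    rw [natDegree_X_pow]
    simpa using (bias_num_lt (List.ofFn x)).le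
  refine le_trans ?_ ((Multiset.toFinset_card_le p.roots).trans ((card_roots' p).trans p1))
  refine Finset.card_le_card_of_injOn g (fun a ha => ?_) hg.injOn
  have h1 := (Finset.mem_filter.1 ha).2
  rw [Finset.mem_coe, Multiset.mem_toFinset, mem_roots p0, IsRoot.def, hp, eval_finsetSum]
  simpa using h1

theorem exists_bias (N l : ℕ) (hl : 1 ≤ l) : ∃ h : List Bool, h.length = l ∧
    ∀ A : Finset (Fin N → Bool), A.Nonempty →
      |∑ z : (Fin l → Bool) × (Fin l → Bool),
        ∏ x ∈ A, sg (ip (pw h (List.ofFn z.1) (List.ofFn x)) (List.ofFn z.2))| ≤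
        2 ^ N * 2 ^ l := by
  classical
  have hl0 : l ≠ 0 := by omega
  let pb := Field.powerBasisOfFiniteOfSeparable (ZMod 2) (GaloisField 2 l)
  have hd : pb.dim = l := pb.finrank.symm.trans (GaloisField.finrank 2 hl0)
  have h2 : (1 : GaloisField 2 l) + 1 = 0 := CharTwo.add_self_eq_zero 1
  let g : (Fin l → Bool) → GaloisField 2 l := fun a => bias_val pb.gen (List.ofFn a)
  have hg : Function.Injective g := fun a b hab =>
    List.ofFn_injective (bias_val_inj h2 pb _ _ (by simp) (by simp [hd]) hab)
  have hs := (hg.bijective_of_nat_card_le (by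
    rw [GaloisField.card 2 l hl0, Nat.card_eq_fintype_card]; simp)).2
  obtain ⟨h0, hh0⟩ := hs (pb.gen ^ l)
  have hh : (List.ofFn h0).length = l := List.length_ofFn
  refine ⟨List.ofFn h0, hh, fun A hA => ?_⟩
  rw [Fintype.sum_prod_type]
  refine (Finset.abs_sum_le_sum_abs _ _).trans ?_
  have key : ∀ a : Fin l → Bool, |∑ b : Fin l → Bool,
      ∏ x ∈ A, sg (ip (pw (List.ofFn h0) (List.ofFn a) (List.ofFn x)) (List.ofFn b))| ≤
      if ∑ x ∈ A, g a ^ bias_num (List.ofFn x) = 0 then (2 : ℝ) ^ l else 0 := fun a => by
    obtain ⟨w, w1, w2, w3⟩ := bias_combine pb.gen h2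
      (fun x : Fin N → Bool => pw (List.ofFn h0) (List.ofFn a) (List.ofFn x))
      (fun x => (bias_pw h2 hl hh hh0 _ _).1) A
    simp only [← w3]
    split_ifs with hz
    · refine (Finset.abs_sum_le_sum_abs _ _).trans ?_
      simp [bias_abs_sg]
    · rw [bias_sum_zero pb.gen l w w1, abs_zero]
      rw [w2, Finset.sum_congr rfl fun x _ => (bias_pw h2 hl hh hh0 _ _).2]
      exact hz
  refine (Finset.sum_le_sum fun a _ => key a).trans ?_
  rw [← Finset.sum_filter, Finset.sum_const, nsmul_eq_mul]
  refine mul_le_mul_of_nonneg_right ?_ (by positivity)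
  exact_mod_cast bias_roots g hg A hA

end Vale.Agent.P336
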