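import Vale.Agent.P336.Seed

/-! Sparsification by fingerprints: a bounded-width set system is cut into few pieces, each of
which is small or is determined by a fingerprint and a short list of its members. -/

namespace Vale.Agent.P336

open Finset

section

variable {Ω L : Type} [DecidableEq Ω] [DecidableEq L] (hit : Ω → L → Prop)
  [∀ x l, Decidable (hit x l)] (Λ : Finset L) (k : ℕ)

/-- The points that miss every atom of `P`. -/
def coMiss (W : Finset Ω) (P : Finset L) : Finset Ω := W.filter fun x => ∀ l ∈ P, ¬ hit x l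

/-- The points that hit some atom of `P`. -/
def coHit (W : Finset Ω) (P : Finset L) : Finset Ω := W.filter fun x => ∃ l ∈ P, hit x l

/-- A pattern that is possible but rare in `W`. -/
def coSoft (W : Finset Ω) (P : Finset L) : Prop :=
  P ⊆ Λ ∧ P.card ≤ k ∧ P.Nonempty ∧ (coMiss hit W P).Nonempty ∧
    (coMiss hit W P).card * (2 ^ 20) ^ P.card ≤ W.card

omit [DecidableEq Ω] [DecidableEq L] in
theorem co_card (W : Finset Ω) (P : Finset L) :
    (coMiss hit W P).card + (coHit hit W P).card = W.card := by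
  rw [← card_filter_add_card_filter_not (s := W) (fun x => ∀ l ∈ P, ¬ hit x l)]
  congr 2
  ext x
  simp [coHit]

omit [DecidableEq Ω] [DecidableEq L] in
theorem co_hit_lt {W : Finset Ω} {P : Finset L} (h : (coMiss hit W P).Nonempty) :
    (coHit hit W P).card < W.card := by
  have h1 := co_card hit W P
  have h2 := card_pos.2 h
  omega

omit [DecidableEq Ω] [DecidableEq L] in
theorem co_miss_lt {W : Finset Ω} {P : Finset L} (h : coSoft hit Λ k W P) :
    (coMiss hit W P).card < W.card := by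
  obtain ⟨-, -, h1, h2, h3⟩ := h
  have h4 : 2 ≤ (2 ^ 20) ^ P.card :=
    le_trans (by norm_num) (Nat.le_self_pow (card_pos.2 h1).ne' _)
  have h5 := card_pos.2 h2
  have h6 := Nat.mul_le_mul_left (coMiss hit W P).card h4
  omega

open Classical in
/-- Decide all rare patterns according to the fingerprint `G`. -/
noncomputable def coCl (G : Finset L) (W : Finset Ω) : Finset Ω :=
  if h : ∃ P, coSoft hit Λ k W P then
    if h.choose ⊆ G then coCl G (coMiss hit W h.choose) else coCl G (coHit hit W h.choose)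
  else W
termination_by W.card
decreasing_by
  · exact co_miss_lt hit Λ k h.choose_spec
  · exact co_hit_lt hit h.choose_spec.2.2.2.1

omit [DecidableEq Ω] in
theorem co_cl_subset (G : Finset L) (n : ℕ) : ∀ W : Finset Ω, W.card ≤ n →
    coCl hit Λ k G W ⊆ W := by
  induction n with
  | zero =>
    intro W hW
    rw [coCl, dif_neg]
    rintro ⟨P, hP⟩
    have := co_miss_lt hit Λ k hP
    omega
  | succ n ih =>
    intro W hW
    rw [coCl]
    split_ifs with h1 h2
    · have := co_miss_lt hit Λ k h1.choose_spec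
      exact (ih _ (by omega)).trans (filter_subset _ _)
    · have := co_hit_lt hit h1.choose_spec.2.2.2.1
      exact (ih _ (by omega)).trans (filter_subset _ _)
    · exact Subset.rfl

/-- The pieces reachable with fingerprint `G` and at most `j` listed members. -/
noncomputable def coLev (G : Finset L) (S : Finset Ω) : ℕ → Finset (Finset Ω)
  | 0 => {coCl hit Λ k G S}
  | j + 1 => coLev G S j ∪ (coLev G S j ×ˢ Λ.powerset.filter fun C => C.card ≤ k).image
      fun p => coCl hit Λ k G (coHit hit p.1 p.2)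

theorem co_lev_card (G : Finset L) (S : Finset Ω) (j : ℕ) :
    (coLev hit Λ k G S j).card ≤ ((Λ.card + 1) ^ k + 1) ^ j := by
  induction j with
  | zero => simp [coLev]
  | succ j ih =>
    rw [coLev]
    refine (card_union_le _ _).trans ((Nat.add_le_add_left card_image_le _).trans ?_)
    rw [card_product, pow_succ, mul_add, mul_one, add_comm]
    exact Nat.add_le_add (Nat.mul_le_mul ih (card_small_subsets Λ k)) ih

theorem co_lev_subset (G : Finset L) (S : Finset Ω) (j : ℕ) :
    ∀ W ∈ coLev hit Λ k G S j, W ⊆ S := by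
  induction j with
  | zero =>
    intro W hW
    rw [coLev, mem_singleton] at hW
    rw [hW]
    exact co_cl_subset hit Λ k G _ _ le_rfl
  | succ j ih =>
    intro W hW
    rw [coLev] at hW
    rcases mem_union.1 hW with h | h
    · exact ih W h
    · obtain ⟨p, hp, rfl⟩ := mem_image.1 h
      exact (co_cl_subset hit Λ k G _ _ le_rfl).trans
        ((filter_subset _ _).trans (ih _ (mem_product.1 hp).1))

theorem co_lev_mono (G : Finset L) (S : Finset Ω) {i j : ℕ} (h : i ≤ j) :
    coLev hit Λ k G S i ⊆ coLev hit Λ k G S j := by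
  induction j, h using Nat.le_induction with
  | base => exact Subset.rfl
  | succ j _ ih => exact ih.trans (by rw [coLev]; exact subset_union_left)

theorem co_steps {t k j c : ℕ} (h1 : 2 ^ (12 * t) < c)
    (h2 : (c : ℝ) ≤ 2 ^ (16 * t) * (1 - 1 / (2 ^ 20) ^ k) ^ j) : j + 1 ≤ 4 * t * 2 ^ (20 * k) := by
  have hq : (0 : ℝ) < (2 ^ 20) ^ k := by positivity
  have hq1 : (1 : ℝ) ≤ (2 ^ 20) ^ k := one_le_pow₀ (by norm_num)
  have h3 : (1 - 1 / (2 ^ 20 : ℝ) ^ k) ^ j ≤ Real.exp (-(j / (2 ^ 20) ^ k)) := by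
    have h4 : 1 - 1 / (2 ^ 20 : ℝ) ^ k ≤ Real.exp (-(1 / (2 ^ 20) ^ k)) := by
      have := Real.add_one_le_exp (-(1 / (2 ^ 20 : ℝ) ^ k))
      linarith
    have h5 : 0 ≤ 1 - 1 / (2 ^ 20 : ℝ) ^ k := by
      rw [sub_nonneg, div_le_one hq]; exact hq1
    refine (pow_le_pow_left₀ h5 h4 j).trans (le_of_eq ?_)
    rw [← Real.exp_nat_mul]
    congr 1
    ring
  have h6 : (2 : ℝ) ^ (12 * t) < c := by exact_mod_cast h1
  have h7 : (2 : ℝ) ^ (4 * t) ≤ Real.exp (4 * t) := by
    have := Real.add_one_le_exp 1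
    calc (2 : ℝ) ^ (4 * t) ≤ Real.exp 1 ^ (4 * t) :=
          pow_le_pow_left₀ (by norm_num) (by linarith) _
      _ = Real.exp (4 * t) := by rw [← Real.exp_nat_mul]; congr 1; push_cast; ring
  have h8 : (2 : ℝ) ^ (16 * t) = 2 ^ (12 * t) * 2 ^ (4 * t) := by
    rw [← pow_add]; congr 1; ring
  have h9 : (2 : ℝ) ^ (12 * t) * 1 <
      2 ^ (12 * t) * (Real.exp (4 * t) * Real.exp (-(j / (2 ^ 20) ^ k))) := by
    rw [mul_one]
    refine (h6.trans_le h2).trans_le ?_
    rw [h8, mul_assoc]
    refine mul_le_mul_of_nonneg_left (mul_le_mul h7 h3 ?_ (Real.exp_pos _).le) (by positivity)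
    refine pow_nonneg ?_ _
    rw [sub_nonneg, div_le_one hq]; exact hq1
  have h10 := lt_of_mul_lt_mul_left h9 (by positivity)
  rw [← Real.exp_add, Real.one_lt_exp_iff, ← sub_eq_add_neg, sub_pos, div_lt_iff₀ hq,
    ← pow_mul] at h10
  exact_mod_cast h10

theorem co_tree (S : Finset Ω) (t : ℕ) (χ : Ω → ℝ) (hχ : ∀ x, |χ x| ≤ 1)
    (h0 : ∀ G ⊆ Λ, ∀ W ∈ coLev hit Λ k G S (4 * t * 2 ^ (20 * k)),
      |∑ x ∈ W, χ x| ≤ 2 ^ (12 * t))
    (T : Finset (Finset L)) (hT : ∀ C ∈ T, C ⊆ Λ ∧ C.card ≤ k) (n : ℕ) :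
    ∀ (W : Finset Ω) (F : Finset L) (j : ℕ) (A : Finset (Finset L)), W.card ≤ n →
      W.card * (2 ^ 20) ^ F.card ≤ 2 ^ (16 * t) →
      (W.card : ℝ) ≤ 2 ^ (16 * t) * (1 - 1 / (2 ^ 20) ^ k) ^ j →
      (∀ G ∈ A, coCl hit Λ k G W ∈ coLev hit Λ k G S j) →
      (∀ x ∈ W, ∀ G, F ⊆ G → G ⊆ Λ → (∀ l ∈ G, ¬ hit x l) → 5 * G.card ≤ t + 5 * k → G ∈ A) →
      F ⊆ Λ → (∀ x ∈ W, ∀ l ∈ F, ¬ hit x l) → 5 * F.card ≤ t + 5 * k →
      j ≤ 4 * t * 2 ^ (20 * k) →
      |∑ x ∈ W.filter (fun x => ∀ C ∈ T, ∃ l ∈ C, hit x l), χ x| ≤ 2 ^ (12 * t) * A.card := by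
  classical
  induction n with
  | zero =>
    intro W F j A hW _ _ _ _ _ _ _ _
    rw [card_eq_zero.1 (Nat.le_zero.1 hW), filter_empty, sum_empty, abs_zero]
    positivity
  | succ n ih =>
    intro W F j A hW i1 i2 i3 i4 i5 i6 i7 i8
    rcases W.eq_empty_or_nonempty with rfl | ⟨x0, hx0⟩
    · rw [filter_empty, sum_empty, abs_zero]
      positivity
    have hFA : F ∈ A := i4 x0 hx0 F Subset.rfl i5 (i6 x0 hx0) i7
    have hA1 : (2 : ℝ) ^ (12 * t) ≤ 2 ^ (12 * t) * A.card := by
      have : (1 : ℝ) ≤ A.card := by exact_mod_cast card_pos.2 ⟨F, hFA⟩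
      exact le_mul_of_one_le_right (by positivity) this
    by_cases hsm : W.card ≤ 2 ^ (12 * t)
    · refine le_trans ?_ hA1
      refine (abs_sum_le_sum_abs _ _).trans ((sum_le_card_nsmul _ _ 1 fun x _ => hχ x).trans ?_)
      rw [nsmul_eq_mul, mul_one]
      exact_mod_cast (card_filter_le _ _).trans hsm
    rw [not_le] at hsm
    by_cases hs : ∃ P, coSoft hit Λ k W P
    · have hP := hs.choose_spec
      have hcl : ∀ G, coCl hit Λ k G W = if hs.choose ⊆ G then
          coCl hit Λ k G (coMiss hit W hs.choose) else coCl hit Λ k G (coHit hit W hs.choose) := by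
        intro G
        rw [coCl, dif_pos hs]
      generalize hs.choose = P at hP hcl
      have l1 := co_miss_lt hit Λ k hP
      have l2 := co_hit_lt hit hP.2.2.2.1
      obtain ⟨p1, p2, -, -, p5⟩ := hP
      have hF5 : 5 * F.card < t := by
        have a1 : 2 ^ (12 * t) * (2 ^ 20) ^ F.card < 2 ^ (16 * t) :=
          lt_of_lt_of_le (Nat.mul_lt_mul_of_pos_right hsm (by positivity)) i1
        rw [← pow_mul, ← pow_add, Nat.pow_lt_pow_iff_right one_lt_two] at a1
        omega
      have hcu := card_union_le F P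
      have b1 := ih (coMiss hit W P) (F ∪ P) j (A.filter fun G => P ⊆ G) (by omega)
        (by
          refine le_trans ?_ i1
          refine (Nat.mul_le_mul_left _ (Nat.pow_le_pow_right (by norm_num) hcu)).trans ?_
          rw [pow_add, mul_comm ((2 ^ 20) ^ F.card), ← mul_assoc]
          exact Nat.mul_le_mul_right _ p5)
        (le_trans (by exact_mod_cast l1.le) i2)
        (fun G hG => by
          have := i3 G (mem_filter.1 hG).1
          rwa [hcl, if_pos (mem_filter.1 hG).2] at this)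
        (fun x hx G g1 g2 g3 g4 => mem_filter.2
          ⟨i4 x (mem_filter.1 hx).1 G (subset_union_left.trans g1) g2 g3 g4,
            subset_union_right.trans g1⟩)
        (union_subset i5 p1)
        (fun x hx l hl => by
          rcases mem_union.1 hl with h | h
          · exact i6 x (mem_filter.1 hx).1 l h
          · exact (mem_filter.1 hx).2 l h)
        (by omega) i8
      have b2 := ih (coHit hit W P) F j (A.filter fun G => ¬ P ⊆ G) (by omega)
        ((Nat.mul_le_mul_right _ l2.le).trans i1)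
        (le_trans (by exact_mod_cast l2.le) i2)
        (fun G hG => by
          have := i3 G (mem_filter.1 hG).1
          rwa [hcl, if_neg (mem_filter.1 hG).2] at this)
        (fun x hx G g1 g2 g3 g4 => mem_filter.2
          ⟨i4 x (mem_filter.1 hx).1 G g1 g2 g3 g4, fun h => by
            obtain ⟨l, hl, hh⟩ := (mem_filter.1 hx).2
            exact g3 l (h hl) hh⟩)
        i5 (fun x hx => i6 x (mem_filter.1 hx).1) i7 i8
      have e1 : ∑ x ∈ W.filter (fun x => ∀ C ∈ T, ∃ l ∈ C, hit x l), χ x =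
          ∑ x ∈ (coMiss hit W P).filter (fun x => ∀ C ∈ T, ∃ l ∈ C, hit x l), χ x +
          ∑ x ∈ (coHit hit W P).filter (fun x => ∀ C ∈ T, ∃ l ∈ C, hit x l), χ x := by
        rw [← sum_filter_add_sum_filter_not _ (fun x => ∀ l ∈ P, ¬ hit x l)]
        congr 2
        · ext x
          simp only [coMiss, mem_filter]
          tauto
        · ext x
          simp only [coHit, mem_filter, not_forall, not_not, exists_prop]
          tauto
      have e2 : (A.card : ℝ) = (A.filter fun G => P ⊆ G).card +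
          (A.filter fun G => ¬ P ⊆ G).card := by
        exact_mod_cast (card_filter_add_card_filter_not (s := A) (fun G => P ⊆ G)).symm
      rw [e1, e2, mul_add]
      exact (abs_add_le _ _).trans (add_le_add b1 b2)
    have hcl : ∀ G, coCl hit Λ k G W = W := fun G => by rw [coCl, dif_neg hs]
    by_cases hc : ∃ C ∈ T, (coMiss hit W C).Nonempty
    · obtain ⟨C, hC, hne⟩ := hc
      rcases C.eq_empty_or_nonempty with rfl | hCne
      · rw [sum_eq_zero, abs_zero]
        · positivity
        · intro x hx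
          obtain ⟨l, hl, -⟩ := (mem_filter.1 hx).2 _ hC
          simp at hl
      have l2 := co_hit_lt hit hne
      have l3 : W.card < (coMiss hit W C).card * (2 ^ 20) ^ k := by
        have a1 : ¬ (coMiss hit W C).card * (2 ^ 20) ^ C.card ≤ W.card := fun h =>
          hs ⟨C, (hT C hC).1, (hT C hC).2, hCne, hne, h⟩
        exact (not_le.1 a1).trans_le
          (Nat.mul_le_mul_left _ (Nat.pow_le_pow_right (by norm_num) (hT C hC).2))
      have hq : (0 : ℝ) < (2 ^ 20) ^ k := by positivity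
      have l4 : ((coHit hit W C).card : ℝ) ≤ W.card * (1 - 1 / (2 ^ 20) ^ k) := by
        have a1 : ((coMiss hit W C).card : ℝ) + (coHit hit W C).card = W.card := by
          exact_mod_cast co_card hit W C
        have a2 : (W.card : ℝ) ≤ (coMiss hit W C).card * (2 ^ 20) ^ k := by exact_mod_cast l3.le
        rw [← div_le_iff₀ hq] at a2
        rw [mul_sub, mul_one, mul_one_div]
        linarith
      have h5 : 0 ≤ 1 - 1 / (2 ^ 20 : ℝ) ^ k := by
        rw [sub_nonneg, div_le_one hq]; exact one_le_pow₀ (by norm_num)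
      have b1 := ih (coHit hit W C) F (j + 1) A (by omega)
        ((Nat.mul_le_mul_right _ l2.le).trans i1)
        (by
          rw [pow_succ (1 - 1 / (2 ^ 20 : ℝ) ^ k), ← mul_assoc]
          exact l4.trans (mul_le_mul_of_nonneg_right i2 h5))
        (fun G hG => by
          have := i3 G hG
          rw [hcl] at this
          rw [coLev]
          exact mem_union_right _ (mem_image.2 ⟨(W, C), mem_product.2
            ⟨this, mem_filter.2 ⟨mem_powerset.2 (hT C hC).1, (hT C hC).2⟩⟩, rfl⟩))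
        (fun x hx => i4 x (mem_filter.1 hx).1) i5 (fun x hx => i6 x (mem_filter.1 hx).1) i7
        (co_steps hsm i2)
      have e1 : W.filter (fun x => ∀ C ∈ T, ∃ l ∈ C, hit x l) =
          (coHit hit W C).filter (fun x => ∀ C ∈ T, ∃ l ∈ C, hit x l) := by
        ext x
        simp only [coHit, mem_filter]
        exact ⟨fun h => ⟨⟨h.1, h.2 C hC⟩, h.2⟩, fun h => ⟨h.1.1, h.2⟩⟩
      rw [e1]
      exact b1
    · have e1 : W.filter (fun x => ∀ C ∈ T, ∃ l ∈ C, hit x l) = W := by
        refine filter_true_of_mem fun x hx C hC => ?_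
        by_contra h
        exact hc ⟨C, hC, x, mem_filter.2 ⟨hx, fun l hl hh => h ⟨l, hl, hh⟩⟩⟩
      rw [e1]
      have := i3 F hFA
      rw [hcl] at this
      exact (h0 F i5 W (co_lev_mono hit Λ k F S i8 this)).trans hA1

end

theorem co_count {L : Type} [DecidableEq L] (Λ : Finset L) {k t : ℕ} (hΛ : Λ.card ≤ 32 * t)
    (hk : 10 * k ≤ t) :
    ((Λ.powerset.filter fun G => 5 * G.card ≤ t + 5 * k).card : ℝ) ≤ 2 ^ (3 * t) := by
  have h1 : ((Λ.powerset.filter fun G => 5 * G.card ≤ t + 5 * k).card : ℝ) ≤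
      2 ^ (t + 5 * k) * ∑ G ∈ Λ.powerset, (1 / 32 : ℝ) ^ G.card := by
    rw [mul_sum, card_eq_sum_ones, Nat.cast_sum]
    refine le_trans (sum_le_sum fun G hG => ?_) (sum_le_sum_of_subset_of_nonneg
      (filter_subset (fun G : Finset L => 5 * G.card ≤ t + 5 * k) _) fun G _ _ => by positivity)
    rw [Nat.cast_one, div_pow, one_pow, mul_one_div, le_div_iff₀ (by positivity), one_mul,
      show (32 : ℝ) = 2 ^ 5 by norm_num, ← pow_mul]
    exact pow_le_pow_right₀ one_le_two (mem_filter.1 hG).2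
  have h2 : ∑ G ∈ Λ.powerset, (1 / 32 : ℝ) ^ G.card = (1 + 1 / 32) ^ Λ.card := by
    have := prod_one_add (s := Λ) (f := fun _ => (1 / 32 : ℝ))
    simp only [prod_const] at this
    exact this.symm
  have h3 : (1 + 1 / 32 : ℝ) ^ Λ.card ≤ Real.exp 1 ^ t := by
    refine (pow_le_pow_right₀ (by norm_num) hΛ).trans ?_
    rw [pow_mul]
    refine pow_le_pow_left₀ (by positivity) ?_ _
    have h4 : (1 + 1 / 32 : ℝ) ≤ Real.exp (1 / 32) := by
      have := Real.add_one_le_exp (1 / 32)
      linarith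
    refine (pow_le_pow_left₀ (by positivity) h4 32).trans (le_of_eq ?_)
    rw [← Real.exp_nat_mul]
    norm_num
  rw [h2] at h1
  have h5 := h1.trans (mul_le_mul_of_nonneg_left h3 (by positivity))
  refine le_of_sq_le_sq ?_ (by positivity)
  refine (pow_le_pow_left₀ (by positivity) h5 2).trans ?_
  have h6 : Real.exp 1 ^ 2 ≤ 2 ^ 3 := by
    have := Real.exp_one_lt_d9
    nlinarith [Real.exp_pos 1]
  have h7 : (Real.exp 1 ^ t) ^ 2 ≤ 2 ^ (3 * t) := by
    rw [← pow_mul, mul_comm t, pow_mul, pow_mul]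
    exact pow_le_pow_left₀ (by positivity) h6 _
  have h8 : ((2 : ℝ) ^ (t + 5 * k)) ^ 2 ≤ 2 ^ (3 * t) := by
    rw [← pow_mul]
    exact pow_le_pow_right₀ one_le_two (by omega)
  rw [mul_pow, sq ((2 : ℝ) ^ (3 * t))]
  exact mul_le_mul h8 h7 (by positivity) (by positivity)

theorem sparsify2 {Ω L : Type} [DecidableEq Ω] [DecidableEq L] (hit : Ω → L → Prop)
    [∀ x l, Decidable (hit x l)] (Λ : Finset L) (k t : ℕ) (S : Finset Ω)
    (hS : S.card ≤ 2 ^ (16 * t)) (hΛ : Λ.card ≤ 32 * t) (hk : 10 * k ≤ t) :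
    ∃ Fam : Finset (Finset Ω),
      Fam.card ≤ 2 ^ Λ.card * ((Λ.card + 1) ^ k + 1) ^ (4 * t * 2 ^ (20 * k)) ∧
      (∀ W ∈ Fam, W ⊆ S) ∧ ∀ χ : Ω → ℝ, (∀ x, |χ x| ≤ 1) →
        (∀ W ∈ Fam, |∑ x ∈ W, χ x| ≤ 2 ^ (12 * t)) →
        ∀ T : Finset (Finset L), (∀ C ∈ T, C ⊆ Λ ∧ C.card ≤ k) →
          |∑ x ∈ S.filter (fun x => ∀ C ∈ T, ∃ l ∈ C, hit x l), χ x| ≤ 2 ^ (15 * t) := by
  refine ⟨Λ.powerset.biUnion fun G => coLev hit Λ k G S (4 * t * 2 ^ (20 * k)), ?_, ?_, ?_⟩
  · refine card_biUnion_le.trans ((sum_le_card_nsmul _ _ _ fun G _ =>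
      co_lev_card hit Λ k G S _).trans ?_)
    rw [card_powerset, smul_eq_mul]
  · intro W hW
    obtain ⟨G, -, h⟩ := mem_biUnion.1 hW
    exact co_lev_subset hit Λ k G S _ W h
  · intro χ hχ h0 T hT
    have h1 := co_tree hit Λ k S t χ hχ
      (fun G hG W hW => h0 W (mem_biUnion.2 ⟨G, mem_powerset.2 hG, hW⟩)) T hT S.card S ∅ 0
      (Λ.powerset.filter fun G => 5 * G.card ≤ t + 5 * k) le_rfl (by simpa using hS)
      (by rw [pow_zero, mul_one]; exact_mod_cast hS) (fun G _ => by simp [coLev])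
      (fun x _ G _ g2 _ g4 => mem_filter.2 ⟨mem_powerset.2 g2, g4⟩) (empty_subset _) (by simp)
      (by simp) (Nat.zero_le _)
    refine h1.trans ((mul_le_mul_of_nonneg_left (co_count Λ hΛ hk) (by positivity)).trans_eq ?_)
    rw [← pow_add]
    congr 1
    ring

end Vale.Agent.P336
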