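import Mathlib

/-! Depth-three OR-AND-OR circuits. -/

namespace Vale.Agent.P336

/-- An OR-AND-OR circuit on `n` variables.  There are `nb` bottom OR gates and `nm` middle AND
gates.  A bottom gate reads literals (`Sum.inl (i, true)` is `x i`, `Sum.inl (i, false)` is its
negation) and constants (`Sum.inr b`); a middle gate reads bottom gates; the top OR gate reads
middle gates. -/
structure Circuit (n : ℕ) where
  nb : ℕ
  nm : ℕ
  bot : Fin nb → Finset ((Fin n × Bool) ⊕ Bool)
  mid : Fin nm → Finset (Fin nb)
  top : Finset (Fin nm)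

/-- The input wire (literal or constant) carries the value one at the point `x`. -/
def wireOn {n : ℕ} (x : Fin n → Bool) : (Fin n × Bool) ⊕ Bool → Prop
  | Sum.inl l => x l.1 = l.2
  | Sum.inr b => b = true

/-- The total number of gates: bottom, middle and the top gate. -/
def Circuit.size {n : ℕ} (C : Circuit n) : ℕ := C.nb + C.nm + 1

/-- The circuit outputs one at the point `x`. -/
def Circuit.Accepts {n : ℕ} (C : Circuit n) (x : Fin n → Bool) : Prop :=
  ∃ a ∈ C.top, ∀ g ∈ C.mid a, ∃ u ∈ C.bot g, wireOn x u

/-- The circuit computes the Boolean function `f`. -/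
def Circuit.Computes {n : ℕ} (C : Circuit n) (f : (Fin n → Bool) → Bool) : Prop :=
  ∀ x, C.Accepts x ↔ f x = true

/-- The least number of gates of an OR-AND-OR circuit computing `f`. -/
noncomputable def S3 {n : ℕ} (f : (Fin n → Bool) → Bool) : ℕ :=
  sInf {s | ∃ C : Circuit n, C.Computes f ∧ C.size = s}

end Vale.Agent.P336
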