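import Mathlib

/-! Moment method for small-bias families, and two counting bounds. -/

namespace Vale.Agent.P336

open Finset

theorem card_small_subsets {α : Type} [DecidableEq α] (T : Finset α) (K : ℕ) :
    (T.powerset.filter fun A => A.card ≤ K).card ≤ (T.card + 1) ^ K := by
  induction K with
  | zero =>
    rw [pow_zero]
    refine card_le_one.2 fun A hA B hB => ?_
    rw [card_eq_zero.1 (Nat.le_zero.1 (mem_filter.1 hA).2),
      card_eq_zero.1 (Nat.le_zero.1 (mem_filter.1 hB).2)]
  | succ K ih =>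
    have h1 : (T.powerset.filter fun A => A.card ≤ K + 1) ⊆
        T.biUnion (fun t => (T.powerset.filter fun A => A.card ≤ K).image (insert t)) ∪
          T.powerset.filter fun A => A.card ≤ K := by
      intro A hA
      obtain ⟨h2, h3⟩ := mem_filter.1 hA
      rcases A.eq_empty_or_nonempty with rfl | ⟨t, ht⟩
      · exact mem_union_right _ (mem_filter.2 ⟨h2, by simp⟩)
      · refine mem_union_left _ (mem_biUnion.2 ⟨t, mem_powerset.1 h2 ht, mem_image.2
          ⟨A.erase t, mem_filter.2 ⟨mem_powerset.2 ((erase_subset t A).trans (mem_powerset.1 h2)),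
            ?_⟩, insert_erase ht⟩⟩)
        rw [card_erase_of_mem ht]
        omega
    have h4 := card_biUnion_le_card_mul T
      (fun t => (T.powerset.filter fun A => A.card ≤ K).image (insert t)) ((T.card + 1) ^ K)
      fun t _ => card_image_le.trans ih
    have h5 := (card_le_card h1).trans (card_union_le _ _)
    rw [pow_succ, mul_comm, add_mul, one_mul]
    omega

theorem seed_count {X : Type} [DecidableEq X] (S : Finset X) (q : ℕ) :
    ((Fintype.piFinset fun _ : Fin (2 * q) => S).filter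
      fun f => (univ.image f).card ≤ q).card ≤ q ^ (2 * q) * S.card ^ q := by
  have h1 : ((Fintype.piFinset fun _ : Fin (2 * q) => S).filter
      fun f => (univ.image f).card ≤ q) ⊆
      ((univ : Finset (Fin (2 * q) → Fin q)) ×ˢ Fintype.piFinset fun _ : Fin q => S).image
        fun p => p.2 ∘ p.1 := by
    intro f hf
    obtain ⟨h2, h3⟩ := mem_filter.1 hf
    rcases Nat.eq_zero_or_pos q with rfl | hq
    · exact mem_image.2 ⟨(fun i => i, fun i => i.elim0), mem_product.2 ⟨mem_univ _,
        Fintype.mem_piFinset.2 fun i => i.elim0⟩, funext fun i => i.elim0⟩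
    · obtain ⟨e⟩ := Function.Embedding.nonempty_of_card_le (α := ↥(univ.image f)) (β := Fin q)
        (by simpa using h3)
      have : Nonempty ↥(univ.image f) :=
        ⟨⟨f ⟨0, by omega⟩, mem_image_of_mem f (mem_univ _)⟩⟩
      refine mem_image.2 ⟨(fun i => e ⟨f i, mem_image_of_mem f (mem_univ _)⟩,
        fun j => (Function.invFun e j).1), mem_product.2 ⟨mem_univ _,
          Fintype.mem_piFinset.2 fun j => ?_⟩, funext fun i => ?_⟩
      · obtain ⟨i, -, hi⟩ := mem_image.1 (Function.invFun e j).2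
        have h4 : (Function.invFun e j).1 ∈ S := hi ▸ Fintype.mem_piFinset.1 h2 i
        exact h4
      · simp only [Function.comp, Function.leftInverse_invFun e.injective _]
  refine (card_le_card h1).trans (card_image_le.trans (le_of_eq ?_))
  simp

theorem seed_prod {X ι : Type} [DecidableEq X] [Fintype ι] (c : X → ℝ)
    (hc : ∀ x, c x = 1 ∨ c x = -1) (f : ι → X) :
    ∏ i, c (f i) =
      ∏ x ∈ (univ.image f).filter fun x => Odd (univ.filter fun i => f i = x).card, c x := by
  rw [prod_comp c f, prod_filter]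
  refine prod_congr rfl fun x _ => ?_
  split_ifs with h
  · rcases hc x with h1 | h1
    · rw [h1, one_pow]
    · rw [h1, h.neg_one_pow]
  · rcases hc x with h1 | h1
    · rw [h1, one_pow]
    · rw [h1, (Nat.not_odd_iff_even.1 h).neg_one_pow]

theorem seed_even {X : Type} [DecidableEq X] {q : ℕ} (f : Fin (2 * q) → X)
    (h : ((univ.image f).filter fun x => Odd (univ.filter fun i => f i = x).card) = ∅) :
    (univ.image f).card ≤ q := by
  have h1 := card_eq_sum_card_image f univ
  have h2 := card_nsmul_le_sum (univ.image f) (fun x => (univ.filter fun i => f i = x).card) 2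
    fun x hx => by
      have h3 := Nat.not_odd_iff_even.1 (filter_eq_empty_iff.1 h hx)
      obtain ⟨i, -, hi⟩ := mem_image.1 hx
      have h4 : 0 < (univ.filter fun i => f i = x).card :=
        card_pos.2 ⟨i, mem_filter.2 ⟨mem_univ _, hi⟩⟩
      obtain ⟨k, hk⟩ := h3
      omega
  rw [← h1, card_univ, Fintype.card_fin, smul_eq_mul] at h2
  omega

theorem seed_moment {X Z : Type} [DecidableEq X] [Fintype Z] (χ : Z → X → ℝ)
    (hχ : ∀ z x, χ z x = 1 ∨ χ z x = -1) (ε : ℝ) (hε : 0 ≤ ε)
    (hb : ∀ A : Finset X, A.Nonempty → |∑ z, ∏ x ∈ A, χ z x| ≤ ε * Fintype.card Z)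
    (S : Finset X) (P q : ℕ) (hP : S.card ≤ P) :
    ∑ z, (∑ x ∈ S, χ z x) ^ (2 * q) ≤
      ((q : ℝ) ^ (2 * q) * (P : ℝ) ^ q + ε * (P : ℝ) ^ (2 * q)) * Fintype.card Z := by
  have hZ : (0 : ℝ) ≤ Fintype.card Z := Nat.cast_nonneg _
  simp only [sum_pow']
  rw [sum_comm]
  have h1 : ∀ f : Fin (2 * q) → X, ∑ z, ∏ i, χ z (f i) ≤
      (if (univ.image f).card ≤ q then (Fintype.card Z : ℝ) else 0) + ε * Fintype.card Z := by
    intro f
    simp only [fun z => seed_prod (χ z) (hχ z) f]
    rcases ((univ.image f).filter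
      fun x => Odd (univ.filter fun i => f i = x).card).eq_empty_or_nonempty with h | h
    · rw [if_pos (seed_even f h), h]
      simp only [prod_empty, sum_const, card_univ, nsmul_eq_mul, mul_one]
      linarith [mul_nonneg hε hZ]
    · have h2 := (le_abs_self _).trans (hb _ h)
      split_ifs <;> linarith
  refine (sum_le_sum fun f _ => h1 f).trans ?_
  rw [sum_add_distrib, ← sum_filter, sum_const, sum_const, nsmul_eq_mul, nsmul_eq_mul, add_mul]
  refine add_le_add (mul_le_mul_of_nonneg_right ?_ hZ) ?_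
  · have h3 := (seed_count S q).trans (Nat.mul_le_mul_left _ (Nat.pow_le_pow_left hP q))
    exact_mod_cast h3
  · have h3 : (Fintype.piFinset fun _ : Fin (2 * q) => S).card ≤ P ^ (2 * q) := by
      rw [Fintype.card_piFinset_const]
      exact Nat.pow_le_pow_left hP _
    have h4 : ((Fintype.piFinset fun _ : Fin (2 * q) => S).card : ℝ) ≤ (P : ℝ) ^ (2 * q) := by
      exact_mod_cast h3
    have h5 := mul_le_mul_of_nonneg_right h4 (mul_nonneg hε hZ)
    linarith

theorem exists_seed {X Z : Type} [DecidableEq X] [Fintype Z] [Nonempty Z] (χ : Z → X → ℝ)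
    (hχ : ∀ z x, χ z x = 1 ∨ χ z x = -1) (ε : ℝ) (hε : 0 ≤ ε)
    (hb : ∀ A : Finset X, A.Nonempty → |∑ z, ∏ x ∈ A, χ z x| ≤ ε * Fintype.card Z)
    (Fam : Finset (Finset X)) (P q : ℕ) (hP : ∀ S ∈ Fam, S.card ≤ P) (η : ℝ) (hη : 0 < η)
    (h : (Fam.card : ℝ) * ((q : ℝ) ^ (2 * q) * (P : ℝ) ^ q + ε * (P : ℝ) ^ (2 * q)) <
      η ^ (2 * q)) :
    ∃ z, ∀ S ∈ Fam, |∑ x ∈ S, χ z x| ≤ η := by
  by_contra hc
  simp only [not_exists, not_forall, not_le] at hc
  have hZ : (0 : ℝ) < Fintype.card Z := Nat.cast_pos.2 Fintype.card_pos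
  have h1 : ∀ z, η ^ (2 * q) ≤ ∑ S ∈ Fam, (∑ x ∈ S, χ z x) ^ (2 * q) := by
    intro z
    obtain ⟨S, hS, h2⟩ := hc z
    refine le_trans ?_ (single_le_sum (f := fun S => (∑ x ∈ S, χ z x) ^ (2 * q))
      (fun S _ => (even_two_mul q).pow_nonneg _) hS)
    rw [← (even_two_mul q).pow_abs (∑ x ∈ S, χ z x)]
    exact pow_le_pow_left₀ hη.le h2.le _
  have h3 := sum_le_sum fun z (_ : z ∈ univ) => h1 z
  rw [sum_comm, sum_const, card_univ, nsmul_eq_mul] at h3
  have h4 := sum_le_sum fun S hS => seed_moment χ hχ ε hε hb S P q (hP S hS)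
  rw [sum_const, nsmul_eq_mul] at h4
  have h5 := mul_lt_mul_of_pos_right h hZ
  linarith

end Vale.Agent.P336
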