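import Vale.Agent.P336.Sparse
import Vale.Agent.P336.Seed
import Vale.Agent.P336.Bias

/-! A seed with small discrepancy on all narrow CNFs in all small subcubes. -/

namespace Vale.Agent.P336

open Finset

theorem discex_cube {N : ℕ} (ρ : Fin N → Option Bool) : (cube ρ).card ≤ 2 ^ (stars ρ).card := by
  rw [← card_powerset]
  refine card_le_card_of_injOn (fun x => (stars ρ).filter fun i => x i = true)
    (fun x _ => mem_coe.2 (mem_powerset.2 (filter_subset _ _))) fun x hx y hy hxy => ?_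
  funext i
  cases hρ : ρ i with
  | none =>
    have h1 : i ∈ stars ρ := mem_filter.2 ⟨mem_univ _, hρ⟩
    have h2 := Finset.ext_iff.1 hxy i
    simp only [mem_filter, h1, true_and] at h2
    exact Bool.eq_iff_iff.2 h2
  | some b => exact ((mem_filter.1 hx).2 i b hρ).trans ((mem_filter.1 hy).2 i b hρ).symm

theorem discex_num {N t q F : ℕ} (ht : 1 ≤ t) (htN : 16 * t ≤ N) (h1 : 25 * N ≤ 4 ^ t)
    (q1 : 24 * N ≤ 16 * (t * q)) (q2 : 16 * (t * q) ≤ 25 * N) (hF : F ≤ 2 ^ (5 * N)) :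
    (F : ℝ) * ((q : ℝ) ^ (2 * q) * ((2 ^ (16 * t) : ℕ) : ℝ) ^ q +
      2 ^ N / 2 ^ (20 * N) * ((2 ^ (16 * t) : ℕ) : ℝ) ^ (2 * q)) < (2 ^ (12 * t)) ^ (2 * q) := by
  have hq : q ≤ 2 ^ (2 * t) := by
    have : q ≤ t * q := Nat.le_mul_of_pos_left q ht
    have e : 2 ^ (2 * t) = 4 ^ t := by rw [pow_mul]; norm_num
    omega
  have hq' : (q : ℝ) ^ (2 * q) ≤ 2 ^ (4 * (t * q)) := by
    have : (q : ℝ) ≤ 2 ^ (2 * t) := by exact_mod_cast hq
    refine (pow_le_pow_left₀ (Nat.cast_nonneg q) this _).trans_eq ?_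
    rw [← pow_mul]
    congr 1
    ring
  have hF' : (F : ℝ) ≤ 2 ^ (5 * N) := by exact_mod_cast hF
  have e1 : ((2 ^ (16 * t) : ℕ) : ℝ) ^ q = 2 ^ (16 * (t * q)) := by
    push_cast
    rw [← pow_mul, mul_assoc]
  have e2 : ((2 ^ (16 * t) : ℕ) : ℝ) ^ (2 * q) = 2 ^ (32 * (t * q)) := by
    push_cast
    rw [← pow_mul]
    congr 1
    ring
  have e3 : ((2 : ℝ) ^ (12 * t)) ^ (2 * q) = 2 ^ (24 * (t * q)) := by
    rw [← pow_mul]
    congr 1
    ring
  rw [e1, e2, e3]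
  generalize t * q = u at q1 q2 hq'
  have a1 : (2 : ℝ) ^ (5 * N) * (2 ^ (4 * u) * 2 ^ (16 * u)) * 2 ^ 2 ≤ 2 ^ (24 * u) := by
    rw [← pow_add, ← pow_add, ← pow_add]
    exact pow_le_pow_right₀ (by norm_num) (by omega)
  have a2 : (2 : ℝ) ^ (5 * N) * (2 ^ N / 2 ^ (20 * N) * 2 ^ (32 * u)) * 2 ^ 2 ≤ 2 ^ (24 * u) := by
    rw [div_mul_eq_mul_div, mul_div_assoc', div_mul_eq_mul_div, div_le_iff₀ (by positivity),
      ← pow_add, ← pow_add, ← pow_add, ← pow_add]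
    exact pow_le_pow_right₀ (by norm_num) (by omega)
  have a3 : (0 : ℝ) < 2 ^ (24 * u) := by positivity
  calc _ ≤ (2 : ℝ) ^ (5 * N) * (2 ^ (4 * u) * 2 ^ (16 * u) +
        2 ^ N / 2 ^ (20 * N) * 2 ^ (32 * u)) := by gcongr
    _ < _ := by rw [mul_add]; linarith

/-- The solution set of a restricted system. -/
def discexSet {N : ℕ}
    (p : (Fin N → Option Bool) × Finset (Finset (Lit N)) × Finset (Lit N)) :
    Finset (Fin N → Bool) :=
  (cube p.1).filter fun x => (∀ C ∈ p.2.1, ∃ l ∈ C, x l.1 = l.2) ∧ ∀ l ∈ p.2.2, ¬ x l.1 = l.2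

theorem discex_fam (N m w K : ℕ) (h2 : ((2 * N + 1) ^ w + 1) ^ K ≤ 2 ^ N) :
    ∃ Fam : Finset (Finset (Fin N → Bool)), Fam.card ≤ 2 ^ (5 * N) ∧
      (∀ S ∈ Fam, S.card ≤ 2 ^ m) ∧ ∀ ρ G Y, (stars ρ).card ≤ m → (∀ C ∈ G, C.card ≤ w) →
        G.card ≤ K → discexSet (ρ, G, Y) ∈ Fam := by
  let T : Finset (Finset (Lit N)) := (univ : Finset (Lit N)).powerset.filter fun A => A.card ≤ w
  have hT : T.card ≤ (2 * N + 1) ^ w := by
    refine (card_small_subsets _ _).trans_eq ?_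
    simp [mul_comm]
  have hG : (T.powerset.filter fun A => A.card ≤ K).card ≤ 2 ^ N :=
    (card_small_subsets _ _).trans ((Nat.pow_le_pow_left (by omega) _).trans h2)
  refine ⟨((univ.filter fun ρ => (stars ρ).card ≤ m) ×ˢ
    (T.powerset.filter fun A => A.card ≤ K) ×ˢ univ).image discexSet, ?_, ?_, ?_⟩
  · refine card_image_le.trans ?_
    rw [card_product, card_product]
    have b1 : (univ.filter fun ρ : Fin N → Option Bool => (stars ρ).card ≤ m).card ≤ 4 ^ N := by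
      refine (card_le_univ _).trans ?_
      simp only [Fintype.card_fun, Fintype.card_option, Fintype.card_bool, Fintype.card_fin]
      exact Nat.pow_le_pow_left (by norm_num) _
    have b2 : (univ : Finset (Finset (Lit N))).card = 4 ^ N := by
      simp [mul_comm N 2, pow_mul]
    rw [b2]
    refine (Nat.mul_le_mul b1 (Nat.mul_le_mul_right _ hG)).trans_eq ?_
    rw [pow_mul, ← mul_pow, ← mul_pow]
    norm_num
  · intro S hS
    obtain ⟨p, hp, rfl⟩ := mem_image.1 hS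
    exact (card_filter_le _ _).trans ((discex_cube _).trans
      (Nat.pow_le_pow_right (by norm_num) (mem_filter.1 (mem_product.1 hp).1).2))
  · intro ρ G Y h3 h4 h5
    refine mem_image_of_mem _ (mem_product.2 ⟨mem_filter.2 ⟨mem_univ _, h3⟩,
      mem_product.2 ⟨mem_filter.2 ⟨mem_powerset.2 fun C hC => ?_, h5⟩, mem_univ _⟩⟩)
    exact mem_filter.2 ⟨mem_powerset.2 (subset_univ _), h4 C hC⟩

theorem discex_red {N : ℕ} (ρ : Fin N → Option Bool) (ψ : Finset (Finset (Lit N))) :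
    ∃ F : Finset (Finset (Lit N)), (∀ C ∈ F, C ⊆ stars ρ ×ˢ (univ : Finset Bool) ∧
      ∃ C' ∈ ψ, C ⊆ C') ∧ ∀ x ∈ cube ρ, (∀ C ∈ ψ, sat x C) ↔ ∀ C ∈ F, ∃ l ∈ C, x l.1 = l.2 := by
  refine ⟨(ψ.filter fun C => ¬ ∃ l ∈ C, ρ l.1 = some l.2).image
    fun C => C.filter fun l => ρ l.1 = none, fun C hC => ?_,
    fun x hx => ⟨fun h1 C hC => ?_, fun h1 C hC => ?_⟩⟩
  · obtain ⟨C', hC', rfl⟩ := mem_image.1 hC
    exact ⟨fun l hl => mem_product.2 ⟨mem_filter.2 ⟨mem_univ _, (mem_filter.1 hl).2⟩,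
      mem_univ _⟩, C', (mem_filter.1 hC').1, filter_subset _ _⟩
  · obtain ⟨C', hC', rfl⟩ := mem_image.1 hC
    obtain ⟨l, hl, h2⟩ := h1 _ (mem_filter.1 hC').1
    refine ⟨l, mem_filter.2 ⟨hl, ?_⟩, h2⟩
    cases h3 : ρ l.1 with
    | none => rfl
    | some b =>
      exact absurd ⟨l, hl, by rw [h3, ← h2, (mem_filter.1 hx).2 _ _ h3]⟩ (mem_filter.1 hC').2
  · by_cases h2 : ∃ l ∈ C, ρ l.1 = some l.2
    · obtain ⟨l, hl, h3⟩ := h2
      exact ⟨l, hl, (mem_filter.1 hx).2 _ _ h3⟩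
    · obtain ⟨l, hl, h3⟩ := h1 _ (mem_image_of_mem _ (mem_filter.2 ⟨hC, h2⟩))
      exact ⟨l, (mem_filter.1 hl).1, h3⟩

theorem discex_exp {c t : ℕ} (h : c ≤ 32 * t) : Real.exp ((c : ℝ) / 16) ≤ 2 ^ (3 * t) := by
  have x2 : Real.exp 2 ≤ 2 ^ 3 := by
    have := Real.exp_one_lt_d9
    have e2 : Real.exp 2 = Real.exp 1 * Real.exp 1 := by rw [← Real.exp_add]; norm_num
    nlinarith [Real.exp_pos 1]
  have : (c : ℝ) ≤ 32 * t := by exact_mod_cast h
  refine (Real.exp_le_exp.2 (show _ ≤ t * (2 : ℝ) by linarith)).trans ?_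
  rw [Real.exp_nat_mul, pow_mul]
  exact pow_le_pow_left₀ (Real.exp_pos _).le x2 _

theorem discex_ext {X : Type} {S T : Finset X} {χ : X → ℝ} {η : ℝ} (h : ∀ x, x ∈ S ↔ x ∈ T)
    (h1 : |∑ x ∈ T, χ x| ≤ η) : |∑ x ∈ S, χ x| ≤ η := by
  rwa [Finset.ext h]

theorem discex_disc {N t w : ℕ} (hw : 1 ≤ w) {χ : (Fin N → Bool) → ℝ}
    (h : ∀ ρ G Y, (stars ρ).card ≤ 16 * t → (∀ C ∈ G, C.card ≤ w) →
      G.card ≤ 64 * t * (4096 * w ^ 3) ^ (w - 1) →
        |∑ x ∈ discexSet (ρ, G, Y), χ x| ≤ 2 ^ (12 * t)) : Disc χ (16 * t) w (2 ^ (15 * t)) := by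
  intro ρ hρ ψ hψ
  have hΛ : (stars ρ ×ˢ (univ : Finset Bool)).card ≤ 32 * t := by
    rw [card_product, card_univ, Fintype.card_bool]
    omega
  obtain ⟨F, hF1, hF2⟩ := discex_red ρ ψ
  have x3 := discex_exp hΛ
  generalize stars ρ ×ˢ (univ : Finset Bool) = Λ at hΛ hF1 x3
  have hΛ' : 2 * Λ.card ≤ 64 * t := by omega
  have key := sparsify (cube ρ) (fun x (l : Lit N) => x l.1 = l.2) χ Λ w hw
    (2 ^ (12 * t)) (fun G hG hc Y _ => discex_ext (fun x => by simp only [discexSet, mem_filter])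
      (h ρ G Y hρ (fun C hC => (hG C hC).2) (hc.trans (Nat.mul_le_mul_right _ hΛ')))) F
      (fun C hC => by
        obtain ⟨a1, C', a2, a3⟩ := hF1 C hC
        exact ⟨a1, (card_le_card a3).trans (hψ _ a2)⟩)
  refine discex_ext (fun x => ?_)
    (key.trans ((mul_le_mul_of_nonneg_left x3 (by positivity)).trans_eq ?_))
  · simp only [mem_filter]
    exact and_congr_right (hF2 x)
  rw [← pow_add]
  congr 1
  ring

theorem exists_disc (N t w : ℕ) (ht : 1 ≤ t) (hw : 1 ≤ w) (htN : 16 * t ≤ N)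
    (h1 : 25 * N ≤ 4 ^ t)
    (h2 : ((2 * N + 1) ^ w + 1) ^ (64 * t * (4096 * w ^ 3) ^ (w - 1)) ≤ 2 ^ N) :
    ∃ h a b : List Bool, h.length = 20 * N ∧ a.length = 20 * N ∧ b.length = 20 * N ∧
      Disc (fun x : Fin N → Bool => sg (ip (pw h a (List.ofFn x)) b)) (16 * t) w
        (2 ^ (15 * t)) := by
  obtain ⟨h, hl, hb⟩ := exists_bias N (20 * N) (by omega)
  obtain ⟨Fam, f1, f2, f3⟩ := discex_fam N (16 * t) w _ h2
  obtain ⟨q, q1, q2⟩ : ∃ q, 24 * N ≤ 16 * (t * q) ∧ 16 * (t * q) ≤ 25 * N := by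
    refine ⟨24 * N / (16 * t) + 1, ?_, ?_⟩
    · rw [← mul_assoc]
      exact (Nat.lt_mul_div_succ _ (by omega)).le
    · rw [← mul_assoc, mul_add]
      have := Nat.mul_div_le (24 * N) (16 * t)
      omega
  obtain ⟨z, hz⟩ := exists_seed (fun (z : (Fin (20 * N) → Bool) × (Fin (20 * N) → Bool))
    (x : Fin N → Bool) => sg (ip (pw h (List.ofFn z.1) (List.ofFn x)) (List.ofFn z.2)))
    (fun z x => by unfold sg; split_ifs <;> simp) (2 ^ N / 2 ^ (20 * N)) (by positivity)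
    (fun A hA => (hb A hA).trans_eq (by
      simp only [Fintype.card_prod, Fintype.card_fun, Fintype.card_bool, Fintype.card_fin]
      push_cast
      field_simp)) Fam (2 ^ (16 * t)) q f2 (2 ^ (12 * t)) (by positivity)
    (discex_num ht htN h1 q1 q2 f1)
  exact ⟨h, List.ofFn z.1, List.ofFn z.2, hl, List.length_ofFn, List.length_ofFn,
    discex_disc hw fun ρ G Y a1 a2 a3 => hz _ (f3 ρ G Y a1 a2 a3)⟩

end Vale.Agent.P336
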