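import Vale.Agent.P336.Core
import Vale.Agent.P336.DiscEx

/-! A seed with small discrepancy on CNFs of logarithmic width in all small subcubes. -/

namespace Vale.Agent.P336

open Finset

theorem disc2_fam (N t w : ℕ) (htN : 16 * t ≤ N) (hw : 10 * w ≤ t)
    (h2 : ((2 * N + 1) ^ w + 1) ^ (4 * t * 2 ^ (20 * w)) ≤ 2 ^ N) :
    ∃ Fam : Finset (Finset (Fin N → Bool)), Fam.card ≤ 2 ^ (5 * N) ∧
      (∀ S ∈ Fam, S.card ≤ 2 ^ (16 * t)) ∧ ∀ χ : (Fin N → Bool) → ℝ, (∀ x, |χ x| ≤ 1) →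
        (∀ W ∈ Fam, |∑ x ∈ W, χ x| ≤ 2 ^ (12 * t)) → Disc χ (16 * t) w (2 ^ (15 * t)) := by
  have hΛ : ∀ ρ : Fin N → Option Bool, (stars ρ).card ≤ 16 * t →
      (stars ρ ×ˢ (univ : Finset Bool)).card ≤ 32 * t := by
    intro ρ hρ
    rw [card_product, card_univ, Fintype.card_bool]
    omega
  have hc : ∀ ρ : Fin N → Option Bool, (stars ρ).card ≤ 16 * t → (cube ρ).card ≤ 2 ^ (16 * t) :=
    fun ρ hρ => (discex_cube ρ).trans (Nat.pow_le_pow_right (by norm_num) hρ)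
  have key := fun (ρ : Fin N → Option Bool) (hρ : (stars ρ).card ≤ 16 * t) =>
    sparsify2 (fun (x : Fin N → Bool) (l : Lit N) => x l.1 = l.2)
      (stars ρ ×ˢ (univ : Finset Bool)) w t (cube ρ) (hc ρ hρ) (hΛ ρ hρ) hw
  choose! Fm f1 f2 f3 using key
  refine ⟨(univ.filter fun ρ => (stars ρ).card ≤ 16 * t).biUnion Fm, ?_, ?_, ?_⟩
  · have b0 : ∀ ρ ∈ univ.filter (fun ρ : Fin N → Option Bool => (stars ρ).card ≤ 16 * t),
        (Fm ρ).card ≤ 4 ^ N * 2 ^ N := by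
      intro ρ hρ
      have a1 := hΛ ρ (mem_filter.1 hρ).2
      refine (f1 ρ (mem_filter.1 hρ).2).trans (Nat.mul_le_mul ?_ (le_trans ?_ h2))
      · rw [show (4 : ℕ) = 2 ^ 2 by norm_num, ← pow_mul]
        exact Nat.pow_le_pow_right (by norm_num) (by omega)
      · exact Nat.pow_le_pow_left (Nat.add_le_add_right (Nat.pow_le_pow_left (by omega) _) _) _
    refine card_biUnion_le.trans ((sum_le_card_nsmul _ _ _ b0).trans ?_)
    have b1 : (univ.filter fun ρ : Fin N → Option Bool => (stars ρ).card ≤ 16 * t).card ≤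
        4 ^ N := by
      refine (card_le_univ _).trans ?_
      simp only [Fintype.card_fun, Fintype.card_option, Fintype.card_bool, Fintype.card_fin]
      exact Nat.pow_le_pow_left (by norm_num) _
    rw [smul_eq_mul]
    refine (Nat.mul_le_mul_right _ b1).trans_eq ?_
    rw [pow_mul, ← mul_pow, ← mul_pow]
    norm_num
  · intro S hS
    obtain ⟨ρ, hρ, h⟩ := mem_biUnion.1 hS
    exact (card_le_card (f2 ρ (mem_filter.1 hρ).2 S h)).trans (hc ρ (mem_filter.1 hρ).2)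
  · intro χ hχ h0 ρ hρ ψ hψ
    obtain ⟨F, hF1, hF2⟩ := discex_red ρ ψ
    refine discex_ext (fun x => ?_) (f3 ρ hρ χ hχ
      (fun W hW => h0 W (mem_biUnion.2 ⟨ρ, mem_filter.2 ⟨mem_univ _, hρ⟩, hW⟩)) F fun C hC => ?_)
    · simp only [mem_filter]
      exact and_congr_right (hF2 x)
    · obtain ⟨a1, C', a2, a3⟩ := hF1 C hC
      exact ⟨a1, (card_le_card a3).trans (hψ _ a2)⟩

theorem exists_disc2 (N t w : ℕ) (ht : 1 ≤ t) (hw : 10 * w ≤ t) (htN : 16 * t ≤ N)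
    (h1 : 25 * N ≤ 4 ^ t) (h2 : ((2 * N + 1) ^ w + 1) ^ (4 * t * 2 ^ (20 * w)) ≤ 2 ^ N) :
    ∃ h a b : List Bool, h.length = 20 * N ∧ a.length = 20 * N ∧ b.length = 20 * N ∧
      Disc (fun x : Fin N → Bool => sg (ip (pw h a (List.ofFn x)) b)) (16 * t) w
        (2 ^ (15 * t)) := by
  obtain ⟨h, hl, hb⟩ := exists_bias N (20 * N) (by omega)
  obtain ⟨Fam, f1, f2, f3⟩ := disc2_fam N t w htN hw h2
  obtain ⟨q, q1, q2⟩ : ∃ q, 24 * N ≤ 16 * (t * q) ∧ 16 * (t * q) ≤ 25 * N := by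
    refine ⟨24 * N / (16 * t) + 1, ?_, ?_⟩
    · rw [← mul_assoc]
      exact (Nat.lt_mul_div_succ _ (by omega)).le
    · rw [← mul_assoc, mul_add]
      have := Nat.mul_div_le (24 * N) (16 * t)
      omega
  obtain ⟨z, hz⟩ := exists_seed (fun (z : (Fin (20 * N) → Bool) × (Fin (20 * N) → Bool))
    (x : Fin N → Bool) => sg (ip (pw h (List.ofFn z.1) (List.ofFn x)) (List.ofFn z.2)))
    (fun z x => by unfold sg; split_ifs <;> simp) (2 ^ N / 2 ^ (20 * N)) (by positivity)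
    (fun A hA => (hb A hA).trans_eq (by
      simp only [Fintype.card_prod, Fintype.card_fun, Fintype.card_bool, Fintype.card_fin]
      push_cast
      field_simp)) Fam (2 ^ (16 * t)) q f2 (2 ^ (12 * t)) (by positivity)
    (discex_num ht htN h1 q1 q2 f1)
  exact ⟨h, List.ofFn z.1, List.ofFn z.2, hl, List.length_ofFn, List.length_ofFn,
    f3 _ (fun x => by unfold sg; split_ifs <;> simp) hz⟩

end Vale.Agent.P336
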