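import Vale.Agent.P336.Basic

/-! Signed expansion of a CNF along its wide clauses. -/

namespace Vale.Agent.P336

open Finset

variable {N : ℕ}

/-- The restriction falsifies every literal of the clause. -/
def exFals (ρ : Fin N → Option Bool) (C : Finset (Lit N)) : Prop :=
  ∀ l ∈ C, ρ l.1 = some (!l.2)

/-- The literals of the clause on free variables. -/
def exTr (ρ : Fin N → Option Bool) (C : Finset (Lit N)) : Finset (Lit N) :=
  C.filter fun l => ρ l.1 = none

/-- Some point of the subcube violates the clause. -/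
def exAlive (ρ : Fin N → Option Bool) (C : Finset (Lit N)) : Prop := ∃ x ∈ cube ρ, ¬ sat x C

/-- Extend the restriction so that it falsifies the clause. -/
def exExt (ρ : Fin N → Option Bool) (C : Finset (Lit N)) : Fin N → Option Bool := fun i =>
  if ρ i = none then
    (if (i, true) ∈ C then some false else if (i, false) ∈ C then some true else none)
  else ρ i

/-- Free the variables of a set of literals. -/
def exUn (τ : Fin N → Option Bool) (J : Finset (Lit N)) : Fin N → Option Bool := fun i =>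
  if (i, true) ∈ J ∨ (i, false) ∈ J then none else τ i

theorem ex_mem_cube {ρ : Fin N → Option Bool} {x : Fin N → Bool} :
    x ∈ cube ρ ↔ ∀ i b, ρ i = some b → x i = b := by simp [cube]

theorem ex_mem_stars {ρ : Fin N → Option Bool} {i : Fin N} : i ∈ stars ρ ↔ ρ i = none := by
  simp [stars]

theorem ex_not_sat {x : Fin N → Bool} {C : Finset (Lit N)} :
    ¬ sat x C ↔ ∀ l ∈ C, x l.1 = !l.2 := by
  unfold sat
  push Not
  refine forall₂_congr fun l _ => ?_
  cases x l.1 <;> cases l.2 <;> simp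

theorem ex_fals_ext {ρ : Fin N → Option Bool} {C : Finset (Lit N)} (h : exAlive ρ C) :
    exFals (exExt ρ C) C := by
  obtain ⟨y, hy, hs⟩ := h
  rw [ex_not_sat] at hs
  rw [ex_mem_cube] at hy
  rintro ⟨i, b⟩ hl
  have h1 := hs _ hl
  simp only at h1
  unfold exExt
  by_cases h0 : ρ i = none
  · rw [if_pos h0]
    cases b
    · have h2 : (i, true) ∉ C := fun h => by
        have := hs _ h
        simp only at this
        rw [h1] at this
        simp at this
      rw [if_neg h2, if_pos hl]; rfl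
    · rw [if_pos hl]; rfl
  · rw [if_neg h0]
    obtain ⟨c, hc⟩ := Option.ne_none_iff_exists'.1 h0
    rw [hc, ← h1, hy i c hc]

theorem ex_fals_not_sat {τ : Fin N → Option Bool} {C : Finset (Lit N)} (h : exFals τ C)
    {x : Fin N → Bool} (hx : x ∈ cube τ) : ¬ sat x C := by
  rw [ex_not_sat]
  exact fun l hl => ex_mem_cube.1 hx _ _ (h l hl)

theorem ex_cube_ext {ρ : Fin N → Option Bool} {C : Finset (Lit N)} (h : exAlive ρ C) :
    cube (exExt ρ C) = (cube ρ).filter fun x => ¬ sat x C := by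
  ext x
  rw [mem_filter]
  constructor
  · intro hx
    refine ⟨ex_mem_cube.2 fun i b hb => ex_mem_cube.1 hx i b ?_, ex_fals_not_sat (ex_fals_ext h) hx⟩
    unfold exExt
    rw [if_neg (by simp [hb]), hb]
  · rintro ⟨hx, hs⟩
    rw [ex_not_sat] at hs
    refine ex_mem_cube.2 fun i b hb => ?_
    unfold exExt at hb
    split_ifs at hb with h1 h2 h3
    · have := hs _ h2
      simp only [Option.some.injEq] at hb
      rw [← hb]; simpa using this
    · have := hs _ h3
      simp only [Option.some.injEq] at hb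
      rw [← hb]; simpa using this
    · exact ex_mem_cube.1 hx i b hb

theorem ex_un_ext (ρ : Fin N → Option Bool) (C : Finset (Lit N)) :
    exUn (exExt ρ C) (exTr ρ C) = ρ := by
  funext i
  unfold exUn exExt exTr
  by_cases h0 : ρ i = none
  · by_cases h1 : (i, true) ∈ C
    · simp [h0, h1]
    · by_cases h2 : (i, false) ∈ C <;> simp [h0, h1, h2]
  · simp [h0]

theorem ex_card_stars {ρ : Fin N → Option Bool} {C : Finset (Lit N)} (h : exAlive ρ C) :
    (stars ρ).card = (stars (exExt ρ C)).card + (exTr ρ C).card := by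
  obtain ⟨y, -, hs⟩ := h
  rw [ex_not_sat] at hs
  have hinj : Set.InjOn (fun l : Lit N => l.1) (exTr ρ C : Set (Lit N)) := by
    rintro ⟨i, b⟩ h1 ⟨j, c⟩ h2 hij
    simp only at hij
    subst hij
    have e1 := hs _ (mem_filter.1 h1).1
    have e2 := hs _ (mem_filter.1 h2).1
    simp only at e1 e2
    rw [e1] at e2
    rw [Bool.not_inj e2]
  rw [← card_image_of_injOn hinj, ← card_union_of_disjoint]
  · congr 1
    ext i
    simp only [mem_union, ex_mem_stars, mem_image, exTr, mem_filter, exExt, Prod.exists,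
      exists_and_right, exists_eq_right]
    by_cases h0 : ρ i = none
    · by_cases h1 : (i, true) ∈ C
      · simp [h0, h1]
      · by_cases h2 : (i, false) ∈ C <;> simp [h0, h1, h2]
    · simp [h0]
  · rw [disjoint_left]
    intro i hi hj
    rw [ex_mem_stars] at hi
    obtain ⟨⟨j, b⟩, hl, rfl⟩ := mem_image.1 hj
    obtain ⟨h1, h2⟩ := mem_filter.1 hl
    simp only at h2
    unfold exExt at hi
    simp only at hi
    rw [if_pos h2] at hi
    cases b
    · by_cases h3 : (j, true) ∈ C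
      · simp [h3] at hi
      · simp [h3, h1] at hi
    · simp [h1] at hi

theorem ex_sat_tr {ρ : Fin N → Option Bool} {C : Finset (Lit N)} (h : exAlive ρ C)
    {x : Fin N → Bool} (hx : x ∈ cube ρ) : sat x (exTr ρ C) ↔ sat x C := by
  constructor
  · rintro ⟨l, hl, e⟩
    exact ⟨l, (mem_filter.1 hl).1, e⟩
  · rintro ⟨l, hl, e⟩
    refine ⟨l, mem_filter.2 ⟨hl, ?_⟩, e⟩
    obtain ⟨y, hy, hs⟩ := h
    by_contra h0
    obtain ⟨c, hc⟩ := Option.ne_none_iff_exists'.1 h0
    refine hs ⟨l, hl, ?_⟩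
    rw [ex_mem_cube.1 hy _ _ hc, ← e, ex_mem_cube.1 hx _ _ hc]

/-- The correlation of a narrow formula together with an initial segment of clauses. -/
noncomputable def exT (χ : (Fin N → Bool) → ℝ) (c : ℕ → Finset (Lit N)) (ρ : Fin N → Option Bool)
    (i : ℕ) (ψ : Finset (Finset (Lit N))) : ℝ :=
  ∑ x ∈ (cube ρ).filter (fun x => (∀ C ∈ ψ, sat x C) ∧ ∀ l < i, sat x (c l)), χ x

open Classical in
theorem ex_identity (χ : (Fin N → Bool) → ℝ) (c : ℕ → Finset (Lit N)) (ρ : Fin N → Option Bool)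
    (w i : ℕ) (ψ : Finset (Finset (Lit N))) :
    exT χ c ρ i ψ = exT χ c ρ 0 (ψ ∪ ((range i).filter fun l =>
        exAlive ρ (c l) ∧ (exTr ρ (c l)).card ≤ w).image fun l => exTr ρ (c l)) -
      ∑ l ∈ (range i).filter (fun l => exAlive ρ (c l) ∧ w < (exTr ρ (c l)).card),
        exT χ c (exExt ρ (c l)) l (ψ ∪ ((range i).filter fun l =>
          exAlive ρ (c l) ∧ (exTr ρ (c l)).card ≤ w).image fun l => exTr ρ (c l)) := by
  set ψ' := ψ ∪ ((range i).filter fun l =>
    exAlive ρ (c l) ∧ (exTr ρ (c l)).card ≤ w).image fun l => exTr ρ (c l) with hψ'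
  set W := (range i).filter (fun l => exAlive ρ (c l) ∧ w < (exTr ρ (c l)).card) with hW
  have e1 : ∀ l ∈ W, exT χ c (exExt ρ (c l)) l ψ' = ∑ x ∈ cube ρ,
      if ¬ sat x (c l) ∧ (∀ C ∈ ψ', sat x C) ∧ ∀ l' < l, sat x (c l') then χ x else 0 := by
    intro l hl
    unfold exT
    rw [ex_cube_ext (mem_filter.1 hl).2.1, filter_filter, sum_filter]
  rw [sum_congr rfl e1, sum_comm]
  unfold exT
  rw [sum_filter, sum_filter, ← sum_sub_distrib]
  refine sum_congr rfl fun x hx => ?_
  by_cases hA : ∀ C ∈ ψ', sat x C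
  · have hψ : ∀ C ∈ ψ, sat x C := fun C hC => hA C (mem_union_left _ hC)
    rw [if_pos (show (∀ C ∈ ψ', sat x C) ∧ ∀ l < 0, sat x (c l) from ⟨hA, by simp⟩)]
    by_cases hall : ∀ l < i, sat x (c l)
    · rw [if_pos ⟨hψ, hall⟩, sum_eq_zero, sub_zero]
      intro l hl
      rw [if_neg]
      exact fun h => h.1 (hall l (mem_range.1 (mem_filter.1 hl).1))
    · rw [if_neg fun h => hall h.2]
      have hex : ∃ l, l < i ∧ ¬ sat x (c l) := by
        by_contra hh
        exact hall fun l hl => by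
          by_contra h2
          exact hh ⟨l, hl, h2⟩
      have hl0 := Nat.find_spec hex
      have hmin : ∀ l' < Nat.find hex, sat x (c l') := fun l' hl' => by
        by_contra h2
        exact Nat.find_min hex hl' ⟨hl'.trans hl0.1, h2⟩
      have hal : exAlive ρ (c (Nat.find hex)) := ⟨x, hx, hl0.2⟩
      have hmem : Nat.find hex ∈ W := by
        refine mem_filter.2 ⟨mem_range.2 hl0.1, hal, ?_⟩
        by_contra h2
        refine hl0.2 ((ex_sat_tr hal hx).1 (hA _ (mem_union_right _ ?_)))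
        exact mem_image.2 ⟨_, mem_filter.2 ⟨mem_range.2 hl0.1, hal, not_lt.1 h2⟩, rfl⟩
      rw [sum_eq_single_of_mem _ hmem, if_pos ⟨hl0.2, hA, hmin⟩, sub_self]
      intro l _ hne
      rw [if_neg]
      rintro ⟨h1, -, h3⟩
      rcases lt_or_gt_of_ne hne with h4 | h4
      · exact h1 (hmin l h4)
      · exact hl0.2 (h3 _ h4)
  · rw [if_neg (show ¬ ((∀ C ∈ ψ', sat x C) ∧ ∀ l < 0, sat x (c l)) from fun h => hA h.1),
      sum_eq_zero fun l _ => if_neg fun h => hA h.2.1, sub_zero, if_neg]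
    rintro ⟨h1, h2⟩
    refine hA fun C hC => ?_
    rcases mem_union.1 hC with h3 | h3
    · exact h1 C h3
    · obtain ⟨l, hl, rfl⟩ := mem_image.1 h3
      obtain ⟨h4, h5, -⟩ := mem_filter.1 hl
      exact (ex_sat_tr h5 hx).2 (h2 l (mem_range.1 h4))

theorem ex_nonempty (M w : ℕ) : (range (M + 1) ×ˢ (univ.filter
    fun ψ : Finset (Finset (Lit N)) => ∀ C ∈ ψ, C.card ≤ w)).Nonempty :=
  ⟨(0, ∅), by simp⟩

/-- The largest correlation inside a subcube. -/
noncomputable def exD (χ : (Fin N → Bool) → ℝ) (c : ℕ → Finset (Lit N)) (M w : ℕ)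
    (ρ : Fin N → Option Bool) : ℝ :=
  (range (M + 1) ×ˢ (univ.filter fun ψ : Finset (Finset (Lit N)) => ∀ C ∈ ψ, C.card ≤ w)).sup'
    (ex_nonempty M w) fun p => |exT χ c ρ p.1 p.2|

theorem ex_le_D (χ : (Fin N → Bool) → ℝ) (c : ℕ → Finset (Lit N)) {M w i : ℕ}
    (ρ : Fin N → Option Bool) (hi : i ≤ M) {ψ : Finset (Finset (Lit N))}
    (hψ : ∀ C ∈ ψ, C.card ≤ w) : |exT χ c ρ i ψ| ≤ exD χ c M w ρ :=
  le_sup' (fun p : ℕ × Finset (Finset (Lit N)) => |exT χ c ρ p.1 p.2|) (b := (i, ψ))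
    (mem_product.2 ⟨mem_range.2 (by omega), mem_filter.2 ⟨mem_univ _, hψ⟩⟩)

theorem ex_D_nonneg (χ : (Fin N → Bool) → ℝ) (c : ℕ → Finset (Lit N)) (M w : ℕ)
    (ρ : Fin N → Option Bool) : 0 ≤ exD χ c M w ρ :=
  (abs_nonneg _).trans (ex_le_D χ c (ψ := ∅) ρ (Nat.zero_le M) (by simp))

open Classical in
theorem ex_rec {χ : (Fin N → Bool) → ℝ} {m w : ℕ} {η : ℝ} (hD : Disc χ m w η)
    (c : ℕ → Finset (Lit N)) (M : ℕ) (ρ : Fin N → Option Bool) (hρ : (stars ρ).card ≤ m) :
    exD χ c M w ρ ≤ η + ∑ l ∈ (range M).filter (fun l => exAlive ρ (c l) ∧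
      w < (exTr ρ (c l)).card ∧ ∀ l' < l, ¬ exFals (exExt ρ (c l)) (c l')),
        exD χ c M w (exExt ρ (c l)) := by
  refine sup'_le _ _ ?_
  rintro ⟨i, ψ⟩ hp
  obtain ⟨hi, hψ⟩ := mem_product.1 hp
  have hi' : i ≤ M := by have := mem_range.1 hi; simp only at this; omega
  have hψ1 := (mem_filter.1 hψ).2
  simp only at hψ1 ⊢
  rw [ex_identity χ c ρ w i ψ]
  set ψ' := ψ ∪ ((range i).filter fun l =>
    exAlive ρ (c l) ∧ (exTr ρ (c l)).card ≤ w).image fun l => exTr ρ (c l) with hψ'
  have hn : ∀ C ∈ ψ', C.card ≤ w := by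
    intro C hC
    rcases mem_union.1 hC with h3 | h3
    · exact hψ1 C h3
    · obtain ⟨l, hl, rfl⟩ := mem_image.1 h3
      exact (mem_filter.1 hl).2.2
  refine (abs_sub _ _).trans (add_le_add ?_ ?_)
  · have := hD ρ hρ ψ' hn
    unfold exT
    simpa using this
  · refine (abs_sum_le_sum_abs _ _).trans ?_
    rw [sum_filter, sum_filter]
    refine le_trans (sum_le_sum fun l hl => ?_) (sum_le_sum_of_subset_of_nonneg
      (range_subset_range.2 hi') fun l _ _ => ?_)
    · have hl' : l ≤ M := by have := mem_range.1 hl; omega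
      by_cases h1 : exAlive ρ (c l) ∧ w < (exTr ρ (c l)).card
      · rw [if_pos h1]
        by_cases h2 : ∀ l' < l, ¬ exFals (exExt ρ (c l)) (c l')
        · rw [if_pos ⟨h1.1, h1.2, h2⟩]
          exact ex_le_D χ c _ hl' hn
        · rw [if_neg fun h => h2 h.2.2]
          push Not at h2
          obtain ⟨l', h3, h4⟩ := h2
          unfold exT
          rw [sum_eq_zero, abs_zero]
          intro x hx
          obtain ⟨h5, -, h6⟩ := mem_filter.1 hx
          exact absurd (h6 l' h3) (ex_fals_not_sat h4 h5)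
      · rw [if_neg h1, if_neg fun h => h1 ⟨h.1, h.2.1⟩]
    · split_ifs
      · exact ex_D_nonneg _ _ _ _ _
      · exact le_rfl

theorem ex_theta {k w : ℕ} {a : ℝ} (ha : 0 ≤ a) (h : 3 * a * k ≤ w) (C : Finset (Lit N))
    (hC : C.card ≤ k) :
    ∑ J ∈ C.powerset.filter (fun J => w < J.card), a ^ J.card ≤ 1 / 2 := by
  have h1 : ∑ J ∈ C.powerset.filter (fun J => w < J.card), a ^ J.card * 2 ^ (w + 1) ≤
      ∑ J ∈ C.powerset, (2 * a) ^ J.card := by
    refine le_trans (sum_le_sum fun J hJ => ?_)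
      (sum_le_sum_of_subset_of_nonneg (filter_subset (fun J : Finset (Lit N) => w < J.card) _)
        fun J _ _ => by positivity)
    rw [mul_pow, mul_comm]
    exact mul_le_mul_of_nonneg_right (pow_le_pow_right₀ one_le_two (mem_filter.1 hJ).2)
      (by positivity)
  have h2 : ∑ J ∈ C.powerset, (2 * a) ^ J.card = (1 + 2 * a) ^ C.card := by
    have := prod_one_add (s := C) (f := fun _ => 2 * a)
    simp only [prod_const] at this
    exact this.symm
  have h3 : (1 + 2 * a) ^ C.card ≤ 2 ^ w := by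
    calc (1 + 2 * a) ^ C.card ≤ (1 + 2 * a) ^ k := pow_le_pow_right₀ (by linarith) hC
      _ ≤ Real.exp (2 * a) ^ k := by
        refine pow_le_pow_left₀ (by positivity) ?_ k
        have := Real.add_one_le_exp (2 * a)
        linarith
      _ = Real.exp (k * (2 * a)) := (Real.exp_nat_mul _ _).symm
      _ ≤ Real.exp (w * Real.log 2) := by
        refine Real.exp_le_exp.2 ?_
        have h4 := Real.log_two_gt_d9
        have h5 : (0 : ℝ) ≤ w := by positivity
        nlinarith
      _ = 2 ^ w := by rw [Real.exp_nat_mul, Real.exp_log two_pos]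
  rw [← sum_mul, h2] at h1
  have h4 : (0 : ℝ) < 2 ^ w := by positivity
  rw [pow_succ] at h1
  nlinarith

open Classical in
theorem ex_double {χ : (Fin N → Bool) → ℝ} {m w k : ℕ} (c : ℕ → Finset (Lit N)) (M : ℕ)
    (hk : ∀ l < M, (c l).card ≤ k) {a : ℝ} (ha : 0 ≤ a) (h : 3 * a * k ≤ w) :
    ∑ ρ ∈ univ.filter (fun ρ : Fin N → Option Bool => (stars ρ).card ≤ m), a ^ (stars ρ).card *
      ∑ l ∈ (range M).filter (fun l => exAlive ρ (c l) ∧
        w < (exTr ρ (c l)).card ∧ ∀ l' < l, ¬ exFals (exExt ρ (c l)) (c l')),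
          exD χ c M w (exExt ρ (c l)) ≤
    1 / 2 * ∑ ρ ∈ univ.filter (fun ρ : Fin N → Option Bool => (stars ρ).card ≤ m),
      a ^ (stars ρ).card * exD χ c M w ρ := by
  set R := univ.filter (fun ρ : Fin N → Option Bool => (stars ρ).card ≤ m) with hR
  let G : (Fin N → Option Bool) → Finset ℕ := fun ρ => (range M).filter (fun l =>
    exAlive ρ (c l) ∧ w < (exTr ρ (c l)).card ∧ ∀ l' < l, ¬ exFals (exExt ρ (c l)) (c l'))
  let F : (Fin N → Option Bool) → Finset ℕ := fun τ => (range M).filter (fun l =>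
    exFals τ (c l) ∧ ∀ l' < l, ¬ exFals τ (c l'))
  let Js : ℕ → Finset (Finset (Lit N)) := fun l => (c l).powerset.filter (fun J => w < J.card)
  let g : (Σ _ : Fin N → Option Bool, ℕ) → (Σ _ : Fin N → Option Bool, Σ _ : ℕ, Finset (Lit N)) :=
    fun p => ⟨exExt p.1 (c p.2), p.2, exTr p.1 (c p.2)⟩
  let v : (Σ _ : Fin N → Option Bool, Σ _ : ℕ, Finset (Lit N)) → ℝ :=
    fun q => a ^ (stars q.1).card * exD χ c M w q.1 * a ^ q.2.2.card
  have hv : ∀ q, 0 ≤ v q := fun q =>
    mul_nonneg (mul_nonneg (by positivity) (ex_D_nonneg _ _ _ _ _)) (by positivity)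
  have hinj : Set.InjOn g (R.sigma G : Set _) := by
    rintro ⟨ρ, l⟩ - ⟨ρ', l'⟩ - e
    simp only [g, Sigma.mk.injEq, heq_eq_eq] at e
    obtain ⟨e1, rfl, e3⟩ := e
    have : ρ = ρ' := by rw [← ex_un_ext ρ (c l), e1, e3, ex_un_ext]
    rw [this]
  have hsub : (R.sigma G).image g ⊆ R.sigma fun τ => (F τ).sigma Js := by
    intro q hq
    obtain ⟨⟨ρ, l⟩, hp, rfl⟩ := mem_image.1 hq
    obtain ⟨h1, h2⟩ := mem_sigma.1 hp
    obtain ⟨h3, h4, h5, h6⟩ := mem_filter.1 h2
    have h7 := ex_card_stars h4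
    have h8 := (mem_filter.1 h1).2
    refine mem_sigma.2 ⟨mem_filter.2 ⟨mem_univ _, ?_⟩, mem_sigma.2
      ⟨mem_filter.2 ⟨h3, ex_fals_ext h4, h6⟩, mem_filter.2 ⟨mem_powerset.2 (filter_subset _ _), h5⟩⟩⟩
    simp only [g] at h7 h8 ⊢
    omega
  have e1 : ∑ ρ ∈ R, a ^ (stars ρ).card * ∑ l ∈ G ρ, exD χ c M w (exExt ρ (c l)) =
      ∑ q ∈ (R.sigma G).image g, v q := by
    rw [sum_image hinj, sum_sigma]
    refine sum_congr rfl fun ρ _ => ?_
    rw [mul_sum]
    refine sum_congr rfl fun l hl => ?_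
    simp only [v, g]
    rw [ex_card_stars (mem_filter.1 hl).2.1, pow_add]
    ring
  refine e1.trans_le ((sum_le_sum_of_subset_of_nonneg hsub fun q _ _ => hv q).trans ?_)
  rw [sum_sigma, mul_sum]
  refine sum_le_sum fun τ _ => ?_
  rw [sum_sigma]
  simp only [v]
  have hF : (F τ).card ≤ 1 := by
    refine card_le_one.2 fun l hl l' hl' => ?_
    obtain ⟨-, h1, h2⟩ := mem_filter.1 hl
    obtain ⟨-, h3, h4⟩ := mem_filter.1 hl'
    by_contra hne
    rcases lt_or_gt_of_ne hne with h5 | h5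
    · exact h4 l h5 h1
    · exact h2 l' h5 h3
  have hp : 0 ≤ a ^ (stars τ).card * exD χ c M w τ :=
    mul_nonneg (by positivity) (ex_D_nonneg _ _ _ _ _)
  have h1 : ∀ l ∈ F τ, ∑ J ∈ Js l, a ^ (stars τ).card * exD χ c M w τ * a ^ J.card ≤
      1 / 2 * (a ^ (stars τ).card * exD χ c M w τ) := by
    intro l hl
    rw [← mul_sum, mul_comm]
    exact mul_le_mul_of_nonneg_right
      (ex_theta ha h (c l) (hk l (mem_range.1 (mem_filter.1 hl).1))) hp
  refine (sum_le_card_nsmul _ _ _ h1).trans ?_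
  rw [nsmul_eq_mul]
  have h2 : ((F τ).card : ℝ) ≤ 1 := by exact_mod_cast hF
  nlinarith

theorem ex_card_fibre (U : Finset (Fin N)) :
    (univ.filter fun ρ : Fin N → Option Bool => stars ρ = U).card ≤ 2 ^ (N - U.card) := by
  have hsub : (univ.filter fun ρ : Fin N → Option Bool => stars ρ = U) ⊆
      Fintype.piFinset fun i => if i ∈ U then {none} else {some true, some false} := by
    intro ρ hρ
    have h1 := (mem_filter.1 hρ).2
    refine Fintype.mem_piFinset.2 fun i => ?_
    rw [← h1]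
    by_cases h2 : ρ i = none
    · simp [ex_mem_stars, h2]
    · obtain ⟨b, hb⟩ := Option.ne_none_iff_exists'.1 h2
      cases b <;> simp [ex_mem_stars, hb]
  refine (card_le_card hsub).trans (le_of_eq ?_)
  rw [Fintype.card_piFinset]
  have e : ∀ i : Fin N, (if i ∈ U then ({none} : Finset (Option Bool))
      else {some true, some false}).card = if i ∈ U then 1 else 2 := by
    intro i; split_ifs <;> rfl
  simp only [e]
  rw [prod_ite, prod_const_one, one_mul, prod_const]
  congr 1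
  have : (univ.filter fun i : Fin N => i ∉ U) = Uᶜ := by ext i; simp
  rw [this, card_compl, Fintype.card_fin]

theorem ex_card_level (u : ℕ) :
    (univ.filter fun ρ : Fin N → Option Bool => (stars ρ).card = u).card ≤
      N.choose u * 2 ^ (N - u) := by
  have h1 : ∀ ρ ∈ univ.filter (fun ρ : Fin N → Option Bool => (stars ρ).card = u),
      stars ρ ∈ powersetCard u (univ : Finset (Fin N)) := fun ρ hρ =>
    mem_powersetCard.2 ⟨subset_univ _, (mem_filter.1 hρ).2⟩
  rw [card_eq_sum_card_fiberwise h1]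
  refine (sum_le_card_nsmul _ _ (2 ^ (N - u)) fun U hU => ?_).trans (by simp)
  rw [← (mem_powersetCard.1 hU).2]
  exact (card_le_card fun ρ hρ => mem_filter.2 ⟨mem_univ _, (mem_filter.1 hρ).2⟩).trans
    (ex_card_fibre U)

theorem ex_mono {m : ℕ} (hm : 2 * m ≤ N) (hm0 : 0 < m) (d : ℕ) : ∀ u, u + d = m →
    (N.choose u : ℝ) * 2 ^ (N - u) * (4 * m / N) ^ u ≤
      (N.choose m : ℝ) * 2 ^ (N - m) * (4 * m / N) ^ m := by
  induction d with
  | zero => intro u hu; rw [← hu]; simp
  | succ d ih =>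
    intro u hu
    refine le_trans ?_ (ih (u + 1) (by omega))
    have hN : (0 : ℝ) < N := by exact_mod_cast (show 0 < N by omega)
    have e1 : (N.choose (u + 1) : ℝ) * (u + 1) = N.choose u * ((N : ℝ) - u) := by
      have := Nat.choose_succ_right_eq N u
      have h2 : ((N - u : ℕ) : ℝ) = N - u := Nat.cast_sub (by omega)
      rw [← h2]
      exact_mod_cast this
    have e2 : (2 : ℝ) ^ (N - u) = 2 ^ (N - (u + 1)) * 2 := by
      rw [← pow_succ]; congr 1; omega
    have h3 : (N.choose u : ℝ) * 2 ≤ N.choose (u + 1) * (4 * m / N) := by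
      have hu1 : (u : ℝ) + 1 ≤ m := by exact_mod_cast (show u + 1 ≤ m by omega)
      have hm1 : 2 * (m : ℝ) ≤ N := by exact_mod_cast hm
      have hc : (0 : ℝ) ≤ N.choose u := by positivity
      have hc' : (0 : ℝ) ≤ N.choose (u + 1) := by positivity
      have hu0 : (0 : ℝ) ≤ u := by positivity
      rw [← mul_div_assoc, le_div_iff₀ hN]
      have h4 : (N.choose (u + 1) : ℝ) * (u + 1) ≤ N.choose (u + 1) * m :=
        mul_le_mul_of_nonneg_left hu1 hc'
      have h5 : (N.choose u : ℝ) * N ≤ N.choose u * (2 * ((N : ℝ) - u)) :=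
        mul_le_mul_of_nonneg_left (by linarith) hc
      linarith
    rw [e2, pow_succ]
    have h6 : (0 : ℝ) ≤ 2 ^ (N - (u + 1)) * (4 * m / N) ^ u := by positivity
    have := mul_le_mul_of_nonneg_left h3 h6
    linarith

theorem ex_weight {m : ℕ} (hm : 2 * m ≤ N) (hm0 : 0 < m) :
    ∑ ρ ∈ univ.filter (fun ρ : Fin N → Option Bool => (stars ρ).card ≤ m),
      (4 * (m : ℝ) / N) ^ (stars ρ).card ≤
      (m + 1) * ((N.choose m : ℝ) * 2 ^ (N - m) * (4 * m / N) ^ m) := by
  have h1 : ∀ ρ ∈ univ.filter (fun ρ : Fin N → Option Bool => (stars ρ).card ≤ m),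
      (stars ρ).card ∈ range (m + 1) := fun ρ hρ =>
    mem_range.2 (Nat.lt_succ_of_le (mem_filter.1 hρ).2)
  rw [← sum_fiberwise_of_maps_to h1]
  refine (sum_le_card_nsmul _ _ ((N.choose m : ℝ) * 2 ^ (N - m) * (4 * m / N) ^ m)
    fun u hu => ?_).trans (by simp)
  have hu' : u ≤ m := Nat.lt_succ_iff.1 (mem_range.1 hu)
  refine le_trans ?_ (ex_mono hm hm0 (m - u) u (by omega))
  rw [sum_congr rfl (g := fun _ => (4 * (m : ℝ) / N) ^ u) fun ρ hρ => by
    rw [(mem_filter.1 hρ).2], sum_const, nsmul_eq_mul]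
  refine mul_le_mul_of_nonneg_right ?_ (by positivity)
  have h2 := (card_le_card (s := (univ.filter
    (fun ρ : Fin N → Option Bool => (stars ρ).card ≤ m)).filter fun ρ => (stars ρ).card = u)
    fun ρ hρ => mem_filter.2 ⟨mem_univ _, (mem_filter.1 hρ).2⟩).trans (ex_card_level (N := N) u)
  exact_mod_cast h2

theorem ex_lower (m : ℕ) (S : Finset (Fin N → Bool)) :
    N.choose m * S.card ≤ ∑ ρ ∈ univ.filter (fun ρ : Fin N → Option Bool => (stars ρ).card = m),
      (S.filter fun x => x ∈ cube ρ).card := by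
  simp only [card_filter]
  rw [sum_comm, mul_comm, ← smul_eq_mul]
  refine card_nsmul_le_sum _ _ _ fun x _ => ?_
  rw [← card_filter]
  have hst : ∀ U : Finset (Fin N),
      stars (fun i => if i ∈ U then none else some (x i)) = U := by
    intro U; ext i; simp [ex_mem_stars]
  have h1 := card_le_card_of_injOn (s := powersetCard m (univ : Finset (Fin N)))
    (t := (univ.filter (fun ρ : Fin N → Option Bool => (stars ρ).card = m)).filter
      fun ρ => x ∈ cube ρ) (fun U i => if i ∈ U then none else some (x i)) (fun U hU => by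
      refine mem_coe.2 (mem_filter.2 ⟨mem_filter.2 ⟨mem_univ _, ?_⟩, ex_mem_cube.2 fun i b hb => ?_⟩)
      · rw [hst]; exact (mem_powersetCard.1 (mem_coe.1 hU)).2
      · simp only at hb
        split_ifs at hb
        simpa using hb)
    (fun U _ U' _ e => by rw [← hst U, ← hst U']; exact congrArg stars e)
  simpa using h1

theorem expand {N m w k : ℕ} {χ : (Fin N → Bool) → ℝ} {η : ℝ} (hD : Disc χ m w η)
    (hm0 : 0 < m) (hm : 2 * m ≤ N) (hw : 12 * k * m ≤ w * N)
    (φ : Finset (Finset (Lit N))) (hk : ∀ C ∈ φ, C.card ≤ k)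
    (hone : ∀ x, (∀ C ∈ φ, sat x C) → χ x = 1) :
    ((univ.filter fun x : Fin N → Bool => ∀ C ∈ φ, sat x C).card : ℝ) * 2 ^ m ≤
      2 * (m + 1) * η * 2 ^ N := by
  classical
  let c : ℕ → Finset (Lit N) := fun l => φ.toList.getD l ∅
  let M := φ.toList.length
  have hc : ∀ l < M, c l ∈ φ := fun l hl => by
    simp only [c]
    rw [List.getD_eq_getElem _ _ hl]
    exact mem_toList.1 (List.getElem_mem hl)
  have hc' : ∀ x, (∀ l < M, sat x (c l)) ↔ ∀ C ∈ φ, sat x C := by
    intro x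
    refine ⟨fun h C hC => ?_, fun h l hl => h _ (hc l hl)⟩
    obtain ⟨l, hl, e⟩ := List.getElem_of_mem (mem_toList.2 hC)
    have := h l hl
    simp only [c] at this
    rwa [List.getD_eq_getElem _ _ hl, e] at this
  have hN : (0 : ℝ) < N := by exact_mod_cast (show 0 < N by omega)
  set a : ℝ := 4 * m / N with ha
  have ha0 : 0 < a := by positivity
  have hak : 3 * a * k ≤ w := by
    have h1 : 12 * (k : ℝ) * m ≤ w * N := by exact_mod_cast hw
    have e : 3 * a * k = 12 * k * m / N := by rw [ha]; ring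
    rw [e, div_le_iff₀ hN]
    exact h1
  have hη : 0 ≤ η := (abs_nonneg _).trans (hD (fun _ => some true) (by simp [stars]) ∅ (by simp))
  set R := univ.filter (fun ρ : Fin N → Option Bool => (stars ρ).card ≤ m) with hR
  set Z := ∑ ρ ∈ R, a ^ (stars ρ).card * exD χ c M w ρ with hZ
  have h1 := ex_double (χ := χ) (m := m) c M (fun l hl => hk _ (hc l hl)) ha0.le hak
  have h2 : Z ≤ η * ∑ ρ ∈ R, a ^ (stars ρ).card + 1 / 2 * Z := by
    refine le_trans ?_ (add_le_add le_rfl h1)
    rw [mul_sum, ← sum_add_distrib]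
    refine sum_le_sum fun ρ hρ => ?_
    rw [mul_comm η, ← mul_add]
    exact mul_le_mul_of_nonneg_left (ex_rec hD c M ρ (mem_filter.1 hρ).2) (by positivity)
  have h3 := mul_le_mul_of_nonneg_left (ex_weight hm hm0) hη
  set S := univ.filter fun x : Fin N → Bool => ∀ C ∈ φ, sat x C with hS
  have h4 : a ^ m * ((N.choose m : ℝ) * S.card) ≤ Z := by
    have h5 : ((N.choose m : ℝ) * S.card) ≤
        ∑ ρ ∈ univ.filter (fun ρ : Fin N → Option Bool => (stars ρ).card = m),
          ((S.filter fun x => x ∈ cube ρ).card : ℝ) := by exact_mod_cast ex_lower m S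
    refine (mul_le_mul_of_nonneg_left h5 (by positivity)).trans ?_
    rw [mul_sum]
    refine le_trans (sum_le_sum fun ρ hρ => ?_) (sum_le_sum_of_subset_of_nonneg
      (s := univ.filter (fun ρ : Fin N → Option Bool => (stars ρ).card = m))
      (fun ρ hρ => mem_filter.2 ⟨mem_univ _, (mem_filter.1 hρ).2.le⟩)
      fun ρ _ _ => mul_nonneg (by positivity) (ex_D_nonneg _ _ _ _ _))
    rw [(mem_filter.1 hρ).2]
    refine mul_le_mul_of_nonneg_left (le_trans (le_of_eq ?_) ((le_abs_self _).trans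
      (ex_le_D χ c (ψ := ∅) ρ (le_refl M) (by simp)))) (by positivity)
    unfold exT
    have e : (cube ρ).filter (fun x => (∀ C ∈ (∅ : Finset (Finset (Lit N))), sat x C) ∧
        ∀ l < M, sat x (c l)) = S.filter fun x => x ∈ cube ρ := by
      ext x
      simp only [mem_filter, hc', hS, mem_univ, true_and, notMem_empty, false_imp_iff,
        implies_true]
      exact and_comm
    rw [e, sum_congr rfl (g := fun _ => (1 : ℝ)) fun x hx =>
      hone x (mem_filter.1 (mem_filter.1 hx).1).2, sum_const, nsmul_eq_mul, mul_one]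
  have hch : (0 : ℝ) < N.choose m := by exact_mod_cast Nat.choose_pos (by omega)
  have hpos : 0 < a ^ m * N.choose m := by positivity
  have h6 : (S.card : ℝ) ≤ 2 * (m + 1) * η * 2 ^ (N - m) := by
    refine le_of_mul_le_mul_left ?_ hpos
    linarith
  have e2 : (2 : ℝ) ^ N = 2 ^ (N - m) * 2 ^ m := by
    rw [← pow_add]; congr 1; omega
  rw [e2, ← mul_assoc]
  exact mul_le_mul_of_nonneg_right h6 (by positivity)

end Vale.Agent.P336
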