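import Vale.Agent.P336.Expand

/-! A function of small discrepancy is not a small disjunction of CNFs. -/

namespace Vale.Agent.P336

open Finset

theorem hard_card {N : ℕ} (V : Finset (Fin N)) (y : Fin N → Bool) :
    (univ.filter fun x : Fin N → Bool => ∀ i ∈ V, x i = y i).card = 2 ^ (N - V.card) := by
  have h1 : (univ.filter fun x : Fin N → Bool => ∀ i ∈ V, x i = y i) =
      Fintype.piFinset (fun i => if i ∈ V then {y i} else (univ : Finset Bool)) := by
    ext x
    simp only [mem_filter, mem_univ, true_and, Fintype.mem_piFinset]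
    constructor
    · intro h i
      by_cases hi : i ∈ V
      · simp [hi, h i hi]
      · simp [hi]
    · intro h i hi
      have := h i
      simpa [hi] using this
  rw [h1, Fintype.card_piFinset]
  have h2 : ∀ i : Fin N, (if i ∈ V then ({y i} : Finset Bool) else univ).card =
      if i ∈ Vᶜ then 2 else 1 := by
    intro i
    by_cases hi : i ∈ V <;> simp [hi]
  simp only [h2]
  rw [Finset.prod_ite_mem, univ_inter, prod_const, card_compl, Fintype.card_fin]

theorem hard_viol {N : ℕ} (C : Finset (Lit N)) :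
    (univ.filter fun x : Fin N → Bool => ¬ sat x C).card ≤ 2 ^ (N - C.card) := by
  rcases (univ.filter fun x : Fin N → Bool => ¬ sat x C).eq_empty_or_nonempty with h | ⟨y, hy⟩
  · rw [h]; simp
  have hy' : ∀ l ∈ C, y l.1 ≠ l.2 := by
    intro l hl h
    exact (mem_filter.1 hy).2 ⟨l, hl, h⟩
  have hinj : Set.InjOn (fun l : Lit N => l.1) (C : Set (Lit N)) := by
    intro l hl l' hl' h
    have h1 := hy' l hl
    have h2 := hy' l' hl'
    have h3 : l.1 = l'.1 := h
    refine Prod.ext h3 ?_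
    rw [h3] at h1
    revert h1 h2
    cases y l'.1 <;> cases l.2 <;> cases l'.2 <;> simp
  have hc : (C.image fun l : Lit N => l.1).card = C.card := card_image_of_injOn hinj
  rw [← hc, ← hard_card _ y]
  refine card_le_card fun x hx => ?_
  simp only [mem_filter, mem_univ, true_and] at hx ⊢
  intro i hi
  obtain ⟨l, hl, rfl⟩ := mem_image.1 hi
  have h1 := hy' l hl
  have h2 : x l.1 ≠ l.2 := fun h => hx ⟨l, hl, h⟩
  revert h1 h2
  cases y l.1 <;> cases l.2 <;> cases x l.1 <;> simp

theorem hard_bias {N m w : ℕ} {χ : (Fin N → Bool) → ℝ} {η : ℝ} (hD : Disc χ m w η)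
    (hm : m ≤ N) : 2 ^ m * |∑ x, χ x| ≤ 2 ^ N * η := by
  obtain ⟨U, -, hU⟩ := exists_subset_card_eq (s := (univ : Finset (Fin N))) (n := m)
    (by simpa using hm)
  have h1 : ∀ y : Fin N → Bool,
      |∑ x ∈ univ.filter (fun x : Fin N → Bool => ∀ i ∈ Uᶜ, x i = y i), χ x| ≤ η := by
    intro y
    have h := hD (fun i => if i ∈ U then none else some (y i)) (by
      rw [← hU]
      refine card_le_card fun i hi => ?_
      by_contra hiU
      simp [stars, hiU] at hi) ∅ (by simp)
    have h2 : (cube (fun i => if i ∈ U then none else some (y i))).filter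
        (fun x => ∀ C ∈ (∅ : Finset (Finset (Lit N))), sat x C) =
        univ.filter (fun x : Fin N → Bool => ∀ i ∈ Uᶜ, x i = y i) := by
      ext x
      simp only [cube, mem_filter, mem_univ, true_and, notMem_empty, false_imp_iff, implies_true,
        and_true, mem_compl]
      constructor
      · intro hx i hi
        exact hx i (y i) (by simp [hi])
      · intro hx i b hb
        by_cases hi : i ∈ U
        · simp [hi] at hb
        · simp only [hi, if_false, Option.some.injEq] at hb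
          rw [← hb]
          exact hx i hi
    rwa [h2] at h
  have h3 : ∑ y : Fin N → Bool,
      ∑ x ∈ univ.filter (fun x : Fin N → Bool => ∀ i ∈ Uᶜ, x i = y i), χ x =
      2 ^ m * ∑ x, χ x := by
    simp only [sum_filter]
    rw [sum_comm, mul_sum]
    refine sum_congr rfl fun x _ => ?_
    rw [← sum_filter, sum_const, nsmul_eq_mul]
    have h4 : (univ.filter fun y : Fin N → Bool => ∀ i ∈ Uᶜ, x i = y i) =
        univ.filter fun y : Fin N → Bool => ∀ i ∈ Uᶜ, y i = x i := by
      ext y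
      simp only [mem_filter, mem_univ, true_and]
      exact ⟨fun h i hi => (h i hi).symm, fun h i hi => (h i hi).symm⟩
    rw [h4, hard_card, card_compl, Fintype.card_fin, hU, Nat.sub_sub_self hm]
    push_cast
    rfl
  have h5 : |∑ y : Fin N → Bool,
      ∑ x ∈ univ.filter (fun x : Fin N → Bool => ∀ i ∈ Uᶜ, x i = y i), χ x| ≤ 2 ^ N * η := by
    refine (abs_sum_le_sum_abs _ _).trans ((sum_le_sum fun y _ => h1 y).trans ?_)
    simp
  rw [h3, abs_mul, abs_of_pos (by positivity : (0 : ℝ) < 2 ^ m)] at h5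
  exact h5

theorem hard_count {N : ℕ} {χ : (Fin N → Bool) → ℝ} (hχ : ∀ x, χ x = 1 ∨ χ x = -1) :
    ∑ x, χ x = 2 * ((univ.filter fun x => χ x = 1).card : ℝ) - 2 ^ N := by
  have h1 : ∀ x, χ x = 2 * (if χ x = 1 then (1 : ℝ) else 0) - 1 := by
    intro x
    rcases hχ x with h | h
    · rw [if_pos h, h]; norm_num
    · rw [if_neg (by rw [h]; norm_num), h]; norm_num
  rw [sum_congr rfl fun x _ => h1 x, sum_sub_distrib, ← mul_sum, sum_boole]
  simp

theorem hard_one {N m w k : ℕ} {χ : (Fin N → Bool) → ℝ} {η : ℝ} (hD : Disc χ m w η)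
    (hm0 : 0 < m) (hm : 2 * m ≤ N) (hw : 12 * k * m ≤ w * N)
    (φ : Finset (Finset (Lit N))) (hone : ∀ x, (∀ C ∈ φ, sat x C) → χ x = 1) :
    ((univ.filter fun x : Fin N → Bool => ∀ C ∈ φ, sat x C).card : ℝ) ≤
      2 * (m + 1) * η * 2 ^ N / 2 ^ m + φ.card * 2 ^ (N - k) := by
  have hex : ∀ C : Finset (Lit N), ∃ D : Finset (Lit N), D ⊆ C ∧ D.card ≤ k ∧
      (D = C ∨ D.card = k) := by
    intro C
    by_cases h : C.card ≤ k
    · exact ⟨C, Subset.rfl, h, Or.inl rfl⟩
    · obtain ⟨D, hD1, hD2⟩ := exists_subset_card_eq (s := C) (n := k) (by omega)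
      exact ⟨D, hD1, hD2.le, Or.inr hD2⟩
  choose t ht1 ht2 ht3 using hex
  have he := expand hD hm0 hm hw (φ.image t) (by
    intro D hD'
    obtain ⟨C, -, rfl⟩ := mem_image.1 hD'
    exact ht2 C) (by
    intro x hx
    refine hone x fun C hC => ?_
    obtain ⟨l, hl, h⟩ := hx (t C) (mem_image_of_mem t hC)
    exact ⟨l, ht1 C hl, h⟩)
  have hsub : (univ.filter fun x : Fin N → Bool => ∀ C ∈ φ, sat x C) ⊆
      (univ.filter fun x : Fin N → Bool => ∀ C ∈ φ.image t, sat x C) ∪
        (φ.filter fun C => (t C).card = k).biUnion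
          fun C => univ.filter fun x : Fin N → Bool => ¬ sat x (t C) := by
    intro x hx
    simp only [mem_union, mem_filter, mem_univ, true_and, mem_biUnion] at hx ⊢
    by_cases h : ∀ D ∈ φ.image t, sat x D
    · exact Or.inl h
    · right
      simp only [not_forall] at h
      obtain ⟨D, hD', hns⟩ := h
      obtain ⟨C, hC, rfl⟩ := mem_image.1 hD'
      refine ⟨C, ⟨hC, ?_⟩, hns⟩
      rcases ht3 C with h | h
      · rw [h] at hns
        exact absurd (hx C hC) hns
      · exact h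
  have h2 : ((φ.filter fun C => (t C).card = k).biUnion
      fun C => univ.filter fun x : Fin N → Bool => ¬ sat x (t C)).card ≤
      φ.card * 2 ^ (N - k) := by
    refine (card_biUnion_le_card_mul _ _ (2 ^ (N - k)) ?_).trans
      (Nat.mul_le_mul_right _ (card_filter_le _ _))
    intro C hC
    have := hard_viol (t C)
    rwa [(mem_filter.1 hC).2] at this
  have h3 := (card_le_card hsub).trans ((card_union_le _ _).trans (Nat.add_le_add_left h2 _))
  have h4 : ((univ.filter fun x : Fin N → Bool => ∀ C ∈ φ, sat x C).card : ℝ) ≤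
      ((univ.filter fun x : Fin N → Bool => ∀ C ∈ φ.image t, sat x C).card : ℝ) +
        φ.card * 2 ^ (N - k) := by exact_mod_cast h3
  refine h4.trans (add_le_add_left ?_ _)
  rw [le_div_iff₀ (by positivity)]
  exact he

theorem hard_num {s : ℕ} (hs : 13 ≤ s) : 16 * (32 * s + 1) < 2 ^ s := by
  induction s, hs using Nat.le_induction with
  | base => norm_num
  | succ n hn ih => rw [pow_succ]; omega

theorem hard_arith {c a P Q s : ℝ} (hP : 0 < P) (hQ : 0 < Q) (hQ2 : 2 ≤ Q)
    (hnum : 16 * (32 * s + 1) < Q)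
    (h1 : Q ^ 32 * |2 * c - P| ≤ P * Q ^ 30)
    (h2 : c ≤ Q * (2 * (32 * s + 1) * Q ^ 30 * P / Q ^ 32 + Q * a))
    (ha : a * (Q ^ 2 * 8) = P) : False := by
  have h3 : |2 * c - P| * Q ^ 2 ≤ P := by
    have : Q ^ 30 * (|2 * c - P| * Q ^ 2) ≤ Q ^ 30 * P := by
      calc Q ^ 30 * (|2 * c - P| * Q ^ 2) = Q ^ 32 * |2 * c - P| := by ring
        _ ≤ P * Q ^ 30 := h1
        _ = Q ^ 30 * P := by ring
    exact le_of_mul_le_mul_left this (by positivity)
  have h4 : |2 * c - P| * 4 ≤ P := by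
    refine le_trans (mul_le_mul_of_nonneg_left ?_ (abs_nonneg _)) h3
    nlinarith only [hQ2]
  have h5 : P - 2 * c ≤ |2 * c - P| := by
    rw [abs_sub_comm]; exact le_abs_self _
  have h6 : Q * (2 * (32 * s + 1) * Q ^ 30 * P / Q ^ 32 + Q * a) =
      2 * (32 * s + 1) / Q * P + P / 8 := by
    rw [← ha]
    field_simp
  have h7 : 2 * (32 * s + 1) / Q < 1 / 8 := by
    rw [div_lt_iff₀ hQ]
    linarith only [hnum]
  have h8 : 2 * (32 * s + 1) / Q * P < 1 / 8 * P := mul_lt_mul_of_pos_right h7 hP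
  rw [h6] at h2
  linarith only [h2, h4, h5, h8, hP]

theorem hard {N s w : ℕ} {χ : (Fin N → Bool) → ℝ} (hχ : ∀ x, χ x = 1 ∨ χ x = -1)
    (hD : Disc χ (32 * s) w (2 ^ (30 * s))) (hs : 13 ≤ s) (hN : 64 * s ≤ N)
    (hw : 12 * (2 * s + 3) * (32 * s) ≤ w * N) {ι : Type} (I : Finset ι)
    (φ : ι → Finset (Finset (Lit N))) (hI : I.card ≤ 2 ^ s) (hφ : ∀ a ∈ I, (φ a).card ≤ 2 ^ s)
    (hc : ∀ x, (∃ a ∈ I, ∀ C ∈ φ a, sat x C) ↔ χ x = 1) : False := by
  have hb := hard_bias hD (by omega)
  rw [hard_count hχ] at hb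
  have hone : ∀ a ∈ I, ((univ.filter fun x : Fin N → Bool => ∀ C ∈ φ a, sat x C).card : ℝ) ≤
      2 * (32 * (s : ℝ) + 1) * 2 ^ (30 * s) * 2 ^ N / 2 ^ (32 * s) +
        2 ^ s * 2 ^ (N - (2 * s + 3)) := by
    intro a ha
    have h := hard_one hD (by omega) (by omega) hw (φ a) fun x hx => (hc x).1 ⟨a, ha, hx⟩
    have h' : ((φ a).card : ℝ) ≤ 2 ^ s := by exact_mod_cast hφ a ha
    push_cast at h
    exact h.trans (add_le_add_right (mul_le_mul_of_nonneg_right h' (by positivity)) _)
  have hsub : (univ.filter fun x => χ x = 1) ⊆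
      I.biUnion fun a => univ.filter fun x : Fin N → Bool => ∀ C ∈ φ a, sat x C := by
    intro x hx
    obtain ⟨a, ha, h⟩ := (hc x).2 (mem_filter.1 hx).2
    exact mem_biUnion.2 ⟨a, ha, mem_filter.2 ⟨mem_univ _, h⟩⟩
  have h1 : ((univ.filter fun x => χ x = 1).card : ℝ) ≤
      ∑ a ∈ I, ((univ.filter fun x : Fin N → Bool => ∀ C ∈ φ a, sat x C).card : ℝ) := by
    exact_mod_cast (card_le_card hsub).trans card_biUnion_le
  have h2 := h1.trans (sum_le_card_nsmul _ _ _ hone)
  rw [nsmul_eq_mul] at h2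
  have hI' : (I.card : ℝ) ≤ 2 ^ s := by exact_mod_cast hI
  have h3 := h2.trans (mul_le_mul_of_nonneg_right hI' (by positivity))
  have hnum : 16 * (32 * (s : ℝ) + 1) < 2 ^ s := by exact_mod_cast hard_num hs
  have hQ2 : (2 : ℝ) ≤ 2 ^ s := le_self_pow₀ (by norm_num) (by omega)
  rw [mul_comm 32 s, mul_comm 30 s, pow_mul, pow_mul] at hb h3
  refine hard_arith (P := 2 ^ N) (Q := 2 ^ s) (by positivity) (by positivity) hQ2 hnum hb h3 ?_
  have h4 : N = (N - (2 * s + 3)) + (s * 2 + 3) := by omega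
  conv_rhs => rw [h4, pow_add, pow_add, pow_mul]
  norm_num

end Vale.Agent.P336
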