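import Vale.Agent.P336.Basic
import Vale.Agent.Lib.PolyTime.Raw

/-! The hard language is decided in polynomial time. -/

namespace Vale.Agent.P336

open Vale.Agent.Lib.PolyTime

section

variable {α : Type} [Enc α]

theorem poly_sz (l : List Bool) : Enc.sz l = 4 * l.length := by
  induction l with
  | nil => simp
  | cons b l ih => simp only [sz_cons, sz_bool, ih, List.length_cons]; omega

theorem poly_zip_eq (g : Bool → Bool → Bool) (u v : List Bool) : List.zipWith g u v =
    (idx (u.take v.length)).map fun i => g (u.getD i false) (v.getD i false) := by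
  refine List.ext_getElem ?_ fun i h1 h2 => ?_
  · simp [idx, min_comm]
  · rw [List.length_zipWith] at h1
    have hu : i < u.length := lt_of_lt_of_le h1 (min_le_left _ _)
    have hv : i < v.length := lt_of_lt_of_le h1 (min_le_right _ _)
    simp [idx, hu, hv]

theorem poly_bxor {c d : α → Bool} (hc : PT c) (hd : PT d) : PT fun a => xor (c a) (d a) := by
  have h : PT fun a => if c a = true then !d a else d a := by fun_prop
  exact h.congr fun a => by cases c a <;> simp

theorem poly_xr {u v : α → List Bool} (hu : PT u) (hv : PT v) : PT fun a => xr (u a) (v a) := by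
  have h1 : PT fun p : α × ℕ => xor ((u p.1).getD p.2 false) ((v p.1).getD p.2 false) :=
    poly_bxor (by fun_prop) (by fun_prop)
  have h2 : PT fun a => idx ((u a).take (v a).length) := by fun_prop
  exact (PT.map (f := fun a i => xor ((u a).getD i false) ((v a).getD i false)) h1 h2).congr
    fun a => poly_zip_eq _ _ _

theorem poly_zand {u v : α → List Bool} (hu : PT u) (hv : PT v) :
    PT fun a => List.zipWith and (u a) (v a) := by
  have h1 : PT fun p : α × ℕ => ((u p.1).getD p.2 false && (v p.1).getD p.2 false) := by fun_prop
  have h2 : PT fun a => idx ((u a).take (v a).length) := by fun_prop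
  exact (PT.map (f := fun a i => ((u a).getD i false && (v a).getD i false)) h1 h2).congr
    fun a => poly_zip_eq _ _ _

theorem poly_sh {h u : α → List Bool} (hh : PT h) (hu : PT u) : PT fun a => sh (h a) (u a) := by
  have h1 : PT fun a => (u a ++ [false]).tail := by fun_prop
  have h2 : PT fun a => (u a).headD false := by fun_prop
  exact PT.ite (h2.eq (PT.const true)) (poly_xr h1 hh) h1

theorem poly_len_xr (u v : List Bool) : (xr u v).length ≤ u.length := by
  unfold xr
  rw [List.length_zipWith]
  exact min_le_left _ _

theorem poly_len_sh (h u : List Bool) : (sh h u).length ≤ u.length := by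
  have h1 : (u ++ [false]).tail.length = u.length := by simp
  unfold sh
  split_ifs
  · exact (poly_len_xr _ _).trans h1.le
  · exact h1.le

theorem poly_len_step (h u acc : List Bool) (b : Bool) :
    (if b = true then xr (sh h acc) u else sh h acc).length ≤ acc.length := by
  split_ifs
  · exact (poly_len_xr _ _).trans (poly_len_sh _ _)
  · exact poly_len_sh _ _

theorem poly_len_ml (h u v : List Bool) : (ml h u v).length ≤ u.length := by
  have key : ∀ (v acc : List Bool), (v.foldl (fun acc b =>
      if b = true then xr (sh h acc) u else sh h acc) acc).length ≤ acc.length := by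
    intro v
    induction v with
    | nil => intro acc; exact le_rfl
    | cons b v ih => intro acc; exact (ih _).trans (poly_len_step h u acc b)
  exact (key v _).trans (by simp)

theorem poly_ml {h u v : α → List Bool} (hh : PT h) (hu : PT u) (hv : PT v) :
    PT fun a => ml (h a) (u a) (v a) := by
  have h1 : PT fun p : α × List Bool × Bool => sh (h p.1) p.2.1 :=
    poly_sh (by fun_prop) (by fun_prop)
  have h2 : PT fun p : α × List Bool × Bool => xr (sh (h p.1) p.2.1) (u p.1) :=
    poly_xr h1 (by fun_prop)
  have h3 : PT fun p : α × List Bool × Bool => p.2.2 := by fun_prop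
  have h4 : PT fun a => (u a).map fun _ => false :=
    PT.map (f := fun _ _ => false) (PT.const _) hu
  exact PT.foldl_inv (f := fun a (acc : List Bool) (b : Bool) =>
      if b = true then xr (sh (h a) acc) (u a) else sh (h a) acc)
    (B := fun a => 4 * (u a).length) (PT.ite (h3.eq (PT.const true)) h2 h1) hv h4 ((PB.const 4).mul hu.pb_length)
    (fun a s => s.length ≤ (u a).length) (fun a => by simp)
    (fun a s y _ hs => (poly_len_step _ _ _ _).trans hs)
    (fun a s hs => by rw [poly_sz]; omega)

theorem poly_on {h : α → List Bool} (hh : PT h) : PT fun a => on (h a) := by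
  have h4 : PT fun a => (h a).map fun _ => false :=
    PT.map (f := fun _ _ => false) (PT.const _) hh
  exact PT.tail (PT.append h4 (PT.const _))

theorem poly_pw {h u x : α → List Bool} (hh : PT h) (hu : PT u) (hx : PT x) :
    PT fun a => pw (h a) (u a) (x a) := by
  have h1 : PT fun p : α × List Bool × Bool => ml (h p.1) p.2.1 p.2.1 :=
    poly_ml (by fun_prop) (by fun_prop) (by fun_prop)
  have h2 : PT fun p : α × List Bool × Bool => ml (h p.1) (ml (h p.1) p.2.1 p.2.1) (u p.1) :=
    poly_ml (by fun_prop) h1 (by fun_prop)
  have h3 : PT fun p : α × List Bool × Bool => p.2.2 := by fun_prop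
  refine PT.foldl_inv (f := fun a (acc : List Bool) (b : Bool) =>
      if b = true then ml (h a) (ml (h a) acc acc) (u a) else ml (h a) acc acc)
    (B := fun a => 4 * (h a).length) (PT.ite (h3.eq (PT.const true)) h2 h1) hx (poly_on hh)
    ((PB.const 4).mul hh.pb_length)
    (fun a s => s.length ≤ (h a).length) (fun a => by simp [on]) (fun a s y _ hs => ?_)
    (fun a s hs => by rw [poly_sz]; omega)
  refine le_trans ?_ hs
  split_ifs
  · exact (poly_len_ml _ _ _).trans (poly_len_ml _ _ _)
  · exact poly_len_ml _ _ _

theorem poly_ip {u v : α → List Bool} (hu : PT u) (hv : PT v) : PT fun a => ip (u a) (v a) := by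
  have h1 : PT fun p : α × Bool × Bool => xor p.2.1 p.2.2 := poly_bxor (by fun_prop) (by fun_prop)
  exact PT.foldl_inv (f := fun _ (acc : Bool) (b : Bool) => xor acc b) (B := fun _ => 1) h1
    (poly_zand hu hv) (PT.const false) (PB.const 1) (fun _ _ => True) (fun _ => trivial)
    (fun _ _ _ _ _ => trivial) (fun _ _ _ => le_rfl)

theorem poly_lang : PT lang := by
  have h0 : PT fun w : List Bool => w.length := PT.length PT.id
  have h1 : PT fun w : List Bool => w.length / 64 :=
    h0.half.half.half.half.half.half.congr fun w => by omega
  have h2 : ∀ c : ℕ, PT fun w : List Bool => c * (w.length / 64) := fun c => (PT.const c).mul h1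
  exact poly_ip (poly_pw (PT.take (h2 20) (PT.drop h1 PT.id))
    (PT.take (h2 20) (PT.drop (h2 21) PT.id)) (PT.take h1 PT.id))
    (PT.take (h2 20) (PT.drop (h2 41) PT.id))

end

theorem lang_machine : ∃ M : Turing.TM2ComputableInPolyTime (id : List Bool → List Bool)
    (fun b : Bool => [b]) lang, ∀ k, Finite (M.tm.Γ k) :=
  PT.rawMachine (f := fun w => [lang w]) (PT.cons poly_lang (PT.const [])) id (fun b => [b]) lang
    fun _ => rfl

end Vale.Agent.P336
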