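import Vale.Agent.P336.Defs
import Vale.Agent.P336.Hard
import Vale.Agent.P336.DiscEx
import Vale.Agent.P336.Asym
import Vale.Agent.P336.Poly

/-! Assembly of the depth-three lower bound. -/

namespace Vale.Agent.P336

open Finset

theorem exists_circuit {n : ℕ} (f : (Fin n → Bool) → Bool) : ∃ C : Circuit n, C.Computes f := by
  let e := (Fintype.equivFin (Fin n → Bool)).symm
  refine ⟨⟨Fintype.card (Fin n → Bool), 1, fun g => if f (e g) = true then {Sum.inr true} else
    univ.image fun i => Sum.inl (i, !(e g i)), fun _ => univ, univ⟩, fun x => ?_⟩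
  simp only [Circuit.Accepts, mem_univ, true_and, true_imp_iff, exists_const]
  constructor
  · intro h
    obtain ⟨u, hu, hw⟩ := h (e.symm x)
    rw [Equiv.apply_symm_apply] at hu
    by_contra hf
    rw [if_neg hf] at hu
    obtain ⟨i, -, rfl⟩ := mem_image.1 hu
    simp [wireOn] at hw
  · intro hf g
    by_cases hg : f (e g) = true
    · exact ⟨Sum.inr true, by simp [hg], rfl⟩
    · rw [if_neg hg]
      have hne : x ≠ e g := fun h => hg (h ▸ hf)
      obtain ⟨i, hi⟩ := Function.ne_iff.1 hne
      refine ⟨Sum.inl (i, !(e g i)), mem_image.2 ⟨i, mem_univ _, rfl⟩, ?_⟩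
      simp only [wireOn]
      revert hi
      cases x i <;> cases e g i <;> simp

theorem le_S3 {n : ℕ} (f : (Fin n → Bool) → Bool) (t : ℕ)
    (h : ∀ C : Circuit n, C.Computes f → t < C.size) : t < S3 f := by
  obtain ⟨C, hC⟩ := exists_circuit f
  obtain ⟨C', hC', e⟩ := Nat.sInf_mem (s := {s | ∃ C : Circuit n, C.Computes f ∧ C.size = s})
    ⟨_, C, hC, rfl⟩
  unfold S3
  rw [← e]
  exact h C' hC'

/-- A circuit restricted along an embedding whose coordinates are variables or constants. -/
theorem restrict {n N s w : ℕ} (C : Circuit n) (hC : C.size ≤ 2 ^ s) (hNn : N ≤ n)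
    (y : Fin n → Bool) {χ : (Fin N → Bool) → ℝ} (hχ : ∀ x, χ x = 1 ∨ χ x = -1)
    (hD : Disc χ (32 * s) w (2 ^ (30 * s))) (hs : 13 ≤ s) (hN : 64 * s ≤ N)
    (hw : 12 * (2 * s + 3) * (32 * s) ≤ w * N)
    (hc : ∀ x : Fin N → Bool,
      C.Accepts (fun j => if h : j.1 < N then x ⟨j.1, h⟩ else y j) ↔ χ x = 1) : False := by
  classical
  let cl : Fin C.nb → Finset (Lit N) := fun g =>
    univ.filter fun l => Sum.inl (Fin.castLE hNn l.1, l.2) ∈ C.bot g
  let T : Fin C.nb → Prop := fun g => Sum.inr true ∈ C.bot g ∨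
    ∃ j : Fin n, ¬ j.1 < N ∧ Sum.inl (j, y j) ∈ C.bot g
  have key : ∀ (x : Fin N → Bool) (g : Fin C.nb),
      (∃ u ∈ C.bot g, wireOn (fun j : Fin n => if h : j.1 < N then x ⟨j.1, h⟩ else y j) u) ↔
        T g ∨ sat x (cl g) := by
    intro x g
    constructor
    · rintro ⟨⟨j, b⟩ | b, hu, hw⟩
      · simp only [wireOn] at hw
        by_cases h : j.1 < N
        · rw [dif_pos h] at hw
          exact Or.inr ⟨(⟨j.1, h⟩, b), mem_filter.2 ⟨mem_univ _, hu⟩, hw⟩
        · rw [dif_neg h] at hw
          exact Or.inl (Or.inr ⟨j, h, hw ▸ hu⟩)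
      · simp only [wireOn] at hw
        exact Or.inl (Or.inl (hw ▸ hu))
    · rintro ((h | ⟨j, h1, h2⟩) | ⟨l, hl, h⟩)
      · exact ⟨_, h, rfl⟩
      · exact ⟨_, h2, by simp only [wireOn]; rw [dif_neg h1]⟩
      · refine ⟨_, (mem_filter.1 hl).2, ?_⟩
        simp only [wireOn, Fin.val_castLE]
        rw [dif_pos l.1.2]
        exact h
  unfold Circuit.size at hC
  refine hard hχ hD hs hN hw C.top (fun a => ((C.mid a).filter fun g => ¬ T g).image cl) ?_ ?_ ?_
  · have := card_le_univ C.top
    rw [Fintype.card_fin] at this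
    omega
  · intro a _
    have h1 := card_le_univ ((C.mid a).filter fun g => ¬ T g)
    rw [Fintype.card_fin] at h1
    have h2 := card_image_le (s := (C.mid a).filter fun g => ¬ T g) (f := cl)
    omega
  · intro x
    rw [← hc x]
    unfold Circuit.Accepts
    refine exists_congr fun a => and_congr_right fun _ => ?_
    simp only [key]
    constructor
    · intro h g hg
      by_cases hT : T g
      · exact Or.inl hT
      · exact Or.inr (h _ (mem_image.2 ⟨g, mem_filter.2 ⟨hg, hT⟩, rfl⟩))
    · intro h D hD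
      obtain ⟨g, hg, rfl⟩ := mem_image.1 hD
      exact (h g (mem_filter.1 hg).1).resolve_left (mem_filter.1 hg).2

theorem lang_embed {n : ℕ} (h a b : List Bool) (hh : h.length = 20 * (n / 64))
    (ha : a.length = 20 * (n / 64)) (hb : b.length = 20 * (n / 64)) :
    ∃ y : Fin n → Bool, ∀ x : Fin (n / 64) → Bool,
      lang (List.ofFn fun j : Fin n => if h : j.1 < n / 64 then x ⟨j.1, h⟩ else y j) =
        ip (pw h a (List.ofFn x)) b := by
  let r : List Bool := h ++ (a ++ (b ++ List.replicate (n - 61 * (n / 64)) false))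
  have hr : r.length = n - n / 64 := by
    simp only [r, List.length_append, List.length_replicate]; omega
  refine ⟨fun j => r.getD (j.1 - n / 64) false, fun x => ?_⟩
  have e : (List.ofFn fun j : Fin n => if h : j.1 < n / 64 then x ⟨j.1, h⟩ else
      r.getD (j.1 - n / 64) false) = List.ofFn x ++ r := by
    refine List.ext_getElem (by simp [hr]; omega) fun i h1 h2 => ?_
    rw [List.getElem_ofFn, List.getElem_append]
    simp only [List.length_ofFn]
    split_ifs with h3
    · rw [List.getElem_ofFn]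
    · rw [List.getD_eq_getElem]
  have hl : (List.ofFn x ++ r).length = n := by simp [hr]; omega
  have hx : (List.ofFn x).length = n / 64 := by simp
  rw [e]
  unfold lang
  rw [hl]
  have e1 : (List.ofFn x ++ r).take (n / 64) = List.ofFn x := List.take_left' hx
  have e2 : (List.ofFn x ++ r).drop (n / 64) = r := List.drop_left' hx
  have e3 : (List.ofFn x ++ r).drop (21 * (n / 64)) =
      a ++ (b ++ List.replicate (n - 61 * (n / 64)) false) := by
    rw [show 21 * (n / 64) = n / 64 + 20 * (n / 64) by omega, ← List.drop_drop, e2]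
    exact List.drop_left' hh
  have e4 : (List.ofFn x ++ r).drop (41 * (n / 64)) =
      b ++ List.replicate (n - 61 * (n / 64)) false := by
    rw [show 41 * (n / 64) = 21 * (n / 64) + 20 * (n / 64) by omega, ← List.drop_drop, e3]
    exact List.drop_left' ha
  rw [e1, e2, e3, e4, List.take_left' ha, List.take_left' hb]
  simp only [r]
  rw [List.take_left' hh]

theorem main_bound : ∃ n₀ : ℕ, ∀ n ≥ n₀,
    (2 : ℝ) ^ ((1 / 2000 : ℝ) * √(n * Real.log n / Real.log (Real.log n))) ≤
      S3 (fun x : Fin n → Bool => lang (List.ofFn x)) ∧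
    (2 : ℝ) ^ ((1 / 2000 : ℝ) * √(n * Real.log n / Real.log (Real.log n))) ≤
      S3 (fun x : Fin n → Bool => !lang (List.ofFn x)) := by
  obtain ⟨n₀, hn⟩ := params
  refine ⟨n₀, fun n hn0 => ?_⟩
  obtain ⟨s, w, p1, p2, p3, p4, p5, p6, p7⟩ := hn n hn0
  obtain ⟨h, a, b, hh, ha, hb, hD⟩ := exists_disc (n / 64) (2 * s) w (by omega) p3 (by omega)
    (by rw [pow_mul]; exact p5) (by rw [show 64 * (2 * s) = 128 * s by ring]; exact p7)
  rw [show 16 * (2 * s) = 32 * s by ring, show 15 * (2 * s) = 30 * s by ring] at hD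
  obtain ⟨y, hy⟩ := lang_embed h a b hh ha hb
  have hfin : ∀ t : ℕ, 2 ^ s < t →
      (2 : ℝ) ^ ((1 / 2000 : ℝ) * √(n * Real.log n / Real.log (Real.log n))) ≤ t := by
    intro t ht
    refine (Real.rpow_le_rpow_of_exponent_le one_le_two p1).trans ?_
    rw [Real.rpow_natCast]
    exact_mod_cast ht.le
  have hsg : ∀ c : Bool, sg c = 1 ∨ sg c = -1 := by intro c; cases c <;> simp [sg]
  constructor
  · refine hfin _ (le_S3 _ _ fun C hC => ?_)
    by_contra hlt
    refine restrict (χ := fun x : Fin (n / 64) → Bool => -sg (ip (pw h a (List.ofFn x)) b)) C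
      (not_lt.1 hlt) (Nat.div_le_self _ _) y (fun x => ?_) (fun ρ hρ ψ hψ => ?_) p2 p4 p6
      fun x => ?_
    · rcases hsg (ip (pw h a (List.ofFn x)) b) with e | e <;> simp [e]
    · rw [sum_neg_distrib, abs_neg]
      exact hD ρ hρ ψ hψ
    · rw [hC]
      simp only [hy x]
      cases ip (pw h a (List.ofFn x)) b <;> norm_num [sg]
  · refine hfin _ (le_S3 _ _ fun C hC => ?_)
    by_contra hlt
    refine restrict C (not_lt.1 hlt) (Nat.div_le_self _ _) y (fun x => hsg _) hD p2 p4 p6
      fun x => ?_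
    rw [hC]
    simp only [hy x]
    cases ip (pw h a (List.ofFn x)) b <;> norm_num [sg]

end Vale.Agent.P336
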