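import Vale.Agent.P336.Main
import Vale.Agent.P336.Disc2
import Vale.Agent.P336.Asym2

/-! Assembly of the stronger depth-three lower bound. -/

namespace Vale.Agent.P336

open Finset

theorem main_bound2 : ∃ n₀ : ℕ, ∀ n ≥ n₀,
    (2 : ℝ) ^ ((1 / 4000 : ℝ) * √(n * Real.log n)) ≤
      S3 (fun x : Fin n → Bool => lang (List.ofFn x)) ∧
    (2 : ℝ) ^ ((1 / 4000 : ℝ) * √(n * Real.log n)) ≤
      S3 (fun x : Fin n → Bool => !lang (List.ofFn x)) := by
  obtain ⟨n₀, hn⟩ := params2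
  refine ⟨n₀, fun n hn0 => ?_⟩
  obtain ⟨s, w, p1, p2, p3, p4, p5, p6, p7⟩ := hn n hn0
  obtain ⟨h, a, b, hh, ha, hb, hD⟩ := exists_disc2 (n / 64) (2 * s) w (by omega) p3 (by omega)
    (by rw [pow_mul]; exact p5) p7
  rw [show 16 * (2 * s) = 32 * s by ring, show 15 * (2 * s) = 30 * s by ring] at hD
  obtain ⟨y, hy⟩ := lang_embed h a b hh ha hb
  have hfin : ∀ t : ℕ, 2 ^ s < t → (2 : ℝ) ^ ((1 / 4000 : ℝ) * √(n * Real.log n)) ≤ t := by
    intro t ht
    refine (Real.rpow_le_rpow_of_exponent_le one_le_two p1).trans ?_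
    rw [Real.rpow_natCast]
    exact_mod_cast ht.le
  have hsg : ∀ c : Bool, sg c = 1 ∨ sg c = -1 := by intro c; cases c <;> simp [sg]
  constructor
  · refine hfin _ (le_S3 _ _ fun C hC => ?_)
    by_contra hlt
    refine restrict (χ := fun x : Fin (n / 64) → Bool => -sg (ip (pw h a (List.ofFn x)) b)) C
      (not_lt.1 hlt) (Nat.div_le_self _ _) y (fun x => ?_) (fun ρ hρ ψ hψ => ?_) p2 p4 p6
      fun x => ?_
    · rcases hsg (ip (pw h a (List.ofFn x)) b) with e | e <;> simp [e]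
    · rw [sum_neg_distrib, abs_neg]
      exact hD ρ hρ ψ hψ
    · rw [hC]
      simp only [hy x]
      cases ip (pw h a (List.ofFn x)) b <;> norm_num [sg]
  · refine hfin _ (le_S3 _ _ fun C hC => ?_)
    by_contra hlt
    refine restrict C (not_lt.1 hlt) (Nat.div_le_self _ _) y (fun x => hsg _) hD p2 p4 p6
      fun x => ?_
    rw [hC]
    simp only [hy x]
    cases ip (pw h a (List.ofFn x)) b <;> norm_num [sg]

end Vale.Agent.P336
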