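import Mathlib

/-! Disjoint sparsification of bounded-width set systems, in discrepancy form. -/

namespace Vale.Agent.P336

open Finset

section Aux

variable {L : Type} [DecidableEq L]

/-- total weight of a family -/
def sparse_wt (k B : ℕ) (G : Finset (Finset L)) : ℕ := ∑ A ∈ G, B ^ (k - A.card)

/-- number of members of size `j` that contain `H` -/
def sparse_deg (G : Finset (Finset L)) (H : Finset L) (j : ℕ) : ℕ :=
  (G.filter fun A => A.card = j ∧ H ⊆ A).card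

/-- thresholds -/
def sparse_th (b B i : ℕ) : ℕ := b * B ^ (i - 1)

/-- the invariant of the sparsification -/
structure sparse_Inv (Λ : Finset L) (k b B : ℕ) (G : Finset (Finset L)) : Prop where
  mem : ∀ A ∈ G, A.Nonempty ∧ A ⊆ Λ ∧ A.card ≤ k
  anti : ∀ A ∈ G, ∀ A' ∈ G, A ⊆ A' → A = A'
  deg : ∀ H : Finset L, H.Nonempty → ∀ j, H.card < j →
    sparse_deg G H j ≤ 2 * sparse_th b B (j - H.card)

/-- the new family -/
def sparse_add (G P : Finset (Finset L)) : Finset (Finset L) :=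
  P ∪ G.filter fun A => ∀ p ∈ P, ¬ p ⊆ A

variable {Λ : Finset L} {k b B : ℕ} {G : Finset (Finset L)}

theorem sparse_up (hB : B = 4 * k * b) (hG : sparse_Inv Λ k b B G) {H : Finset L}
    (hH : H.Nonempty) :
    2 * ∑ A ∈ G.filter (fun A => H ⊂ A), B ^ (k - A.card) ≤ B ^ (k - H.card) := by
  have hmap : ∀ A ∈ G.filter (fun A => H ⊂ A), A.card ∈ Ioc H.card k := by
    intro A hA
    rw [mem_filter] at hA
    exact mem_Ioc.mpr ⟨card_lt_card hA.2, (hG.mem A hA.1).2.2⟩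
  rw [← sum_fiberwise_of_maps_to hmap]
  have h1 : ∀ j ∈ Ioc H.card k, ∑ A ∈ (G.filter fun A => H ⊂ A) with A.card = j,
      B ^ (k - A.card) ≤ 2 * b * B ^ (k - H.card - 1) := by
    intro j hj
    rw [mem_Ioc] at hj
    have h2 : ((G.filter fun A => H ⊂ A).filter fun A => A.card = j).card ≤ sparse_deg G H j := by
      refine card_le_card fun A hA => ?_
      simp only [mem_filter] at hA ⊢
      exact ⟨hA.1.1, hA.2, hA.1.2.subset⟩
    calc ∑ A ∈ (G.filter fun A => H ⊂ A) with A.card = j, B ^ (k - A.card)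
        = ((G.filter fun A => H ⊂ A).filter fun A => A.card = j).card * B ^ (k - j) := by
          rw [← smul_eq_mul, ← sum_const]
          exact sum_congr rfl fun A hA => by rw [(mem_filter.mp hA).2]
      _ ≤ 2 * sparse_th b B (j - H.card) * B ^ (k - j) :=
          Nat.mul_le_mul_right _ (h2.trans (hG.deg H hH j hj.1))
      _ = 2 * b * B ^ (k - H.card - 1) := by
          rw [sparse_th, show k - H.card - 1 = j - H.card - 1 + (k - j) by omega, pow_add]
          ring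
  have h3 := sum_le_card_nsmul _ _ _ h1
  rw [Nat.card_Ioc, smul_eq_mul] at h3
  refine (Nat.mul_le_mul_left 2 h3).trans ?_
  rcases Nat.eq_zero_or_pos (k - H.card) with h | h
  · rw [h]; simp
  · obtain ⟨d, hd⟩ : ∃ d, k - H.card = d + 1 := ⟨k - H.card - 1, by omega⟩
    have h4 : d + 1 ≤ k := by omega
    rw [hd, Nat.add_sub_cancel, pow_succ]
    calc 2 * ((d + 1) * (2 * b * B ^ d)) = B ^ d * (4 * (d + 1) * b) := by ring
      _ ≤ B ^ d * (4 * k * b) := by gcongr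
      _ = B ^ d * B := by rw [← hB]

theorem sparse_cap (hB : B = 4 * k * b) (hG : sparse_Inv Λ k b B G) :
    sparse_wt k B G ≤ 2 * Λ.card * B ^ (k - 1) := by
  have h1 : sparse_wt k B G ≤ ∑ l ∈ Λ, ∑ A ∈ G.filter (fun A => l ∈ A), B ^ (k - A.card) := by
    simp only [sum_filter]
    rw [sum_comm]
    refine sum_le_sum fun A hA => ?_
    obtain ⟨⟨l, hl⟩, hs, -⟩ := hG.mem A hA
    refine le_trans ?_ (single_le_sum (f := fun l => if l ∈ A then B ^ (k - A.card) else 0)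
      (fun _ _ => Nat.zero_le _) (hs hl))
    simp [hl]
  have h2 : ∀ l ∈ Λ, ∑ A ∈ G.filter (fun A => l ∈ A), B ^ (k - A.card) ≤ 2 * B ^ (k - 1) := by
    intro l _
    have h3 := sparse_up hB hG (singleton_nonempty l)
    rw [card_singleton] at h3
    have h4 : G.filter (fun A => l ∈ A) ⊆ insert {l} (G.filter fun A => {l} ⊂ A) := by
      intro A hA
      rw [mem_filter] at hA
      rw [mem_insert, mem_filter]
      rcases (singleton_subset_iff.mpr hA.2).eq_or_ssubset with h | h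
      · exact Or.inl h.symm
      · exact Or.inr ⟨hA.1, h⟩
    refine (sum_le_sum_of_subset h4).trans ?_
    rw [sum_insert (by simp), card_singleton]
    omega
  refine h1.trans ((sum_le_card_nsmul _ _ _ h2).trans (le_of_eq ?_))
  rw [smul_eq_mul]
  ring

theorem sparse_add_wt (hB : B = 4 * k * b) (hG : sparse_Inv Λ k b B G) {P : Finset (Finset L)}
    {h : ℕ} (hP : ∀ p ∈ P, p.Nonempty ∧ p.card = h) (hPG : ∀ p ∈ P, ∀ A ∈ G, ¬ A ⊆ p) :
    2 * sparse_wt k B G + P.card * B ^ (k - h) ≤ 2 * sparse_wt k B (sparse_add G P) := by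
  have hd : Disjoint P (G.filter fun A => ∀ p ∈ P, ¬ p ⊆ A) :=
    disjoint_left.mpr fun p hp hq => (mem_filter.mp hq).2 p hp subset_rfl
  have e1 : ∑ A ∈ P, B ^ (k - A.card) = P.card * B ^ (k - h) := by
    rw [← smul_eq_mul, ← sum_const]
    exact sum_congr rfl fun p hp => by rw [(hP p hp).2]
  have h1 : ∑ A ∈ G.filter (fun A => ¬ ∀ p ∈ P, ¬ p ⊆ A), B ^ (k - A.card) ≤
      ∑ p ∈ P, ∑ A ∈ G.filter (fun A => p ⊂ A), B ^ (k - A.card) := by
    simp only [sum_filter]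
    rw [sum_comm]
    refine sum_le_sum fun A hA => ?_
    split_ifs with hc
    · exact Nat.zero_le _
    · push Not at hc
      obtain ⟨p, hp, hpA⟩ := hc
      have hs : p ⊂ A :=
        Finset.ssubset_iff_subset_ne.mpr ⟨hpA, fun e => hPG p hp A hA e.symm.subset⟩
      refine le_trans ?_ (single_le_sum (f := fun p => if p ⊂ A then B ^ (k - A.card) else 0)
        (fun _ _ => Nat.zero_le _) hp)
      simp [hs]
  have h2 : 2 * ∑ p ∈ P, ∑ A ∈ G.filter (fun A => p ⊂ A), B ^ (k - A.card) ≤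
      P.card * B ^ (k - h) := by
    rw [mul_sum, ← smul_eq_mul]
    refine sum_le_card_nsmul _ _ _ fun p hp => ?_
    rw [← (hP p hp).2]
    exact sparse_up hB hG (hP p hp).1
  unfold sparse_wt sparse_add
  rw [sum_union hd, e1, ← sum_filter_add_sum_filter_not G fun A => ∀ p ∈ P, ¬ p ⊆ A]
  omega

theorem sparse_add_inv (hG : sparse_Inv Λ k b B G) {P : Finset (Finset L)} {h : ℕ} (hh : h ≤ k)
    (hP : ∀ p ∈ P, p.Nonempty ∧ p.card = h) (hPΛ : ∀ p ∈ P, p ⊆ Λ)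
    (hPG : ∀ p ∈ P, ∀ A ∈ G, ¬ A ⊆ p)
    (hdeg : ∀ H : Finset L, H.Nonempty → H.card < h →
      sparse_deg G H h + sparse_deg P H h ≤ 2 * sparse_th b B (h - H.card)) :
    sparse_Inv Λ k b B (sparse_add G P) := by
  refine ⟨fun A hA => ?_, fun A hA A' hA' hs => ?_, fun H hH j hj => ?_⟩
  · rcases mem_union.mp hA with h1 | h1
    · exact ⟨(hP A h1).1, hPΛ A h1, (hP A h1).2.trans_le hh⟩
    · exact hG.mem A (mem_filter.mp h1).1
  · rcases mem_union.mp hA with h1 | h1 <;> rcases mem_union.mp hA' with h2 | h2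
    · exact eq_of_subset_of_card_le hs (by rw [(hP A h1).2, (hP A' h2).2])
    · exact absurd hs ((mem_filter.mp h2).2 A h1)
    · exact absurd hs (hPG A' h2 A (mem_filter.mp h1).1)
    · exact hG.anti A (mem_filter.mp h1).1 A' (mem_filter.mp h2).1 hs
  · have h1 : sparse_deg (sparse_add G P) H j ≤ sparse_deg G H j + sparse_deg P H j := by
      unfold sparse_deg sparse_add
      rw [filter_union, add_comm]
      refine (card_union_le _ _).trans (Nat.add_le_add_left (card_le_card ?_) _)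
      exact filter_subset_filter _ (filter_subset _ _)
    by_cases hjh : j = h
    · subst hjh
      exact h1.trans (hdeg H hH hj)
    · have h2 : sparse_deg P H j = 0 := by
        rw [sparse_deg, card_eq_zero, filter_eq_empty_iff]
        intro p hp hc
        exact hjh (hc.1.symm.trans (hP p hp).2)
      rw [h2, add_zero] at h1
      exact h1.trans (hG.deg H hH j hj)

theorem sparse_add_hit (G P : Finset (Finset L)) (f : L → Prop) :
    (∀ C ∈ sparse_add G P, ∃ l ∈ C, f l) ↔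
      (∀ C ∈ G, ∃ l ∈ C, f l) ∧ ∀ C ∈ P, ∃ l ∈ C, f l := by
  constructor
  · intro h
    have h1 : ∀ C ∈ P, ∃ l ∈ C, f l := fun C hC => h C (mem_union_left _ hC)
    refine ⟨fun C hC => ?_, h1⟩
    by_cases hc : ∀ p ∈ P, ¬ p ⊆ C
    · exact h C (mem_union_right _ (mem_filter.mpr ⟨hC, hc⟩))
    · push Not at hc
      obtain ⟨p, hp, hpC⟩ := hc
      obtain ⟨l, hl, hf⟩ := h1 p hp
      exact ⟨l, hpC hl, hf⟩
  · rintro ⟨h1, h2⟩ C hC
    rcases mem_union.mp hC with h | h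
    · exact h2 C h
    · exact h1 C (mem_filter.mp h).1

theorem sparse_deg_single (C H : Finset L) (j : ℕ) : sparse_deg {C} H j ≤ 1 :=
  (card_filter_le _ _).trans (card_singleton C).le

/-- a flower -/
def sparse_fl (b B : ℕ) (G : Finset (Finset L)) (H : Finset L) (j : ℕ) : Prop :=
  H.Nonempty ∧ H.card < j ∧ sparse_th b B (j - H.card) ≤ sparse_deg G H j

/-- adding one set -/
theorem sparse_one (hB : B = 4 * k * b) (hB1 : 1 ≤ B) (hG : sparse_Inv Λ k b B G) {C : Finset L}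
    (hC : C.Nonempty) (hCΛ : C ⊆ Λ) (hCk : C.card ≤ k) (hCG : ∀ A ∈ G, ¬ A ⊆ C)
    (hfl : ∀ H, ¬ sparse_fl b B G H C.card) :
    sparse_Inv Λ k b B (sparse_add G {C}) ∧
      2 * sparse_wt k B G + 1 ≤ 2 * sparse_wt k B (sparse_add G {C}) := by
  have hP : ∀ p ∈ ({C} : Finset (Finset L)), p.Nonempty ∧ p.card = C.card := by
    intro p hp
    rw [mem_singleton.mp hp]
    exact ⟨hC, rfl⟩
  have hPG : ∀ p ∈ ({C} : Finset (Finset L)), ∀ A ∈ G, ¬ A ⊆ p := by
    intro p hp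
    rw [mem_singleton.mp hp]
    exact hCG
  refine ⟨sparse_add_inv hG hCk hP (fun p hp => mem_singleton.mp hp ▸ hCΛ) hPG fun H hH hlt => ?_,
    le_trans ?_ (sparse_add_wt hB hG hP hPG)⟩
  · have h1 : ¬ sparse_th b B (C.card - H.card) ≤ sparse_deg G H C.card :=
      fun h => hfl H ⟨hH, hlt, h⟩
    have h2 := sparse_deg_single C H C.card
    omega
  · rw [card_singleton, one_mul]
    exact Nat.add_le_add_left (Nat.one_le_pow _ _ hB1) _

/-- the petals -/
def sparse_pet (G : Finset (Finset L)) (H : Finset L) (j : ℕ) : Finset (Finset L) :=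
  (G.filter fun A => A.card = j ∧ H ⊆ A).image fun A => A \ H

theorem sparse_flower (hB : B = 4 * k * b) (hb1 : 1 ≤ b) (hB1 : 1 ≤ B)
    (hG : sparse_Inv Λ k b B G) (hex : ∃ j H, sparse_fl b B G H j) :
    ∃ H j, H ⊆ Λ ∧ (sparse_Inv Λ k b B (sparse_add G {H}) ∧
      2 * sparse_wt k B G + 1 ≤ 2 * sparse_wt k B (sparse_add G {H})) ∧
      sparse_Inv Λ k b B (sparse_add G (sparse_pet G H j)) ∧
      2 * sparse_wt k B G + b * B ^ (k - 1) ≤
        2 * sparse_wt k B (sparse_add G (sparse_pet G H j)) := by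
  classical
  obtain ⟨j, ⟨H₀, hH₀⟩, hmin⟩ : ∃ j, (∃ H, sparse_fl b B G H j) ∧
      ∀ j' < j, ∀ H, ¬ sparse_fl b B G H j' :=
    ⟨Nat.find hex, Nat.find_spec hex, fun j' hj' H h => Nat.find_min hex hj' ⟨H, h⟩⟩
  obtain ⟨H, hH, hmax⟩ : ∃ H, sparse_fl b B G H j ∧
      ∀ H', sparse_fl b B G H' j → H'.card ≤ H.card := by
    have hex2 : ∃ d, ∃ H, sparse_fl b B G H j ∧ j - H.card = d := ⟨_, H₀, hH₀, rfl⟩
    obtain ⟨H, hH, hd⟩ := Nat.find_spec hex2
    refine ⟨H, hH, fun H' hH' => ?_⟩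
    have h1 : Nat.find hex2 ≤ j - H'.card := Nat.find_min' hex2 ⟨H', hH', rfl⟩
    have h2 := hH.2.1
    have h3 := hH'.2.1
    omega
  obtain ⟨hne, hlt, hth⟩ := hH
  have hpos : 0 < H.card := card_pos.mpr hne
  obtain ⟨A₀, hA₀⟩ : (G.filter fun A => A.card = j ∧ H ⊆ A).Nonempty := by
    rw [← card_pos]
    exact lt_of_lt_of_le (Nat.mul_pos hb1 (Nat.pow_pos hB1)) hth
  rw [mem_filter] at hA₀
  obtain ⟨hA₀, hA₀j, hHA₀⟩ := hA₀
  have hjk : j ≤ k := hA₀j ▸ (hG.mem A₀ hA₀).2.2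
  have hHΛ : H ⊆ Λ := hHA₀.trans (hG.mem A₀ hA₀).2.1
  have hP : ∀ p ∈ sparse_pet G H j, p.Nonempty ∧ p.card = j - H.card := by
    intro p hp
    obtain ⟨A, hA, rfl⟩ := mem_image.mp hp
    rw [mem_filter] at hA
    have h1 : (A \ H).card = j - H.card := by rw [card_sdiff_of_subset hA.2.2, hA.2.1]
    exact ⟨card_pos.mp (by omega), h1⟩
  have hPG : ∀ p ∈ sparse_pet G H j, ∀ A ∈ G, ¬ A ⊆ p := by
    intro p hp A' hA' hs
    have h1 := (hP p hp).2
    obtain ⟨A, hA, rfl⟩ := mem_image.mp hp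
    rw [mem_filter] at hA
    have h2 := hG.anti A' hA' A hA.1 (hs.trans sdiff_subset)
    have h3 := card_le_card hs
    rw [h2, hA.2.1] at h3
    omega
  have hcard : (sparse_pet G H j).card = sparse_deg G H j := by
    refine card_image_of_injOn fun A hA A' hA' he => ?_
    rw [mem_coe, mem_filter] at hA hA'
    rw [← sdiff_union_of_subset hA.2.2, ← sdiff_union_of_subset hA'.2.2]
    exact congrArg (· ∪ H) he
  refine ⟨H, j, hHΛ, sparse_one hB hB1 hG hne hHΛ (by omega) (fun A hA hs => ?_)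
    (hmin _ hlt), sparse_add_inv hG (by omega) hP (fun p hp => ?_) hPG fun H' hH' hlt' => ?_,
    le_trans ?_ (sparse_add_wt hB hG hP hPG)⟩
  · have h2 := hG.anti A hA A₀ hA₀ (hs.trans hHA₀)
    have h3 := card_le_card hs
    rw [h2, hA₀j] at h3
    omega
  · obtain ⟨A, hA, rfl⟩ := mem_image.mp hp
    exact sdiff_subset.trans (hG.mem A (mem_filter.mp hA).1).2.1
  · have h1 : ¬ sparse_th b B (j - H.card - H'.card) ≤ sparse_deg G H' (j - H.card) :=
      fun h => hmin (j - H.card) (by omega) H' ⟨hH', hlt', h⟩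
    have h2 : sparse_deg (sparse_pet G H j) H' (j - H.card) ≤
        sparse_th b B (j - H.card - H'.card) := by
      by_cases hd : Disjoint H H'
      · have hc : (H ∪ H').card = H.card + H'.card := card_union_of_disjoint hd
        have hp' : 0 < H'.card := card_pos.mpr hH'
        have h3 : ¬ sparse_th b B (j - (H ∪ H').card) ≤ sparse_deg G (H ∪ H') j := by
          intro h
          have := hmax (H ∪ H') ⟨hne.mono subset_union_left, by omega, h⟩
          omega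
        rw [hc, ← Nat.sub_sub] at h3
        refine le_trans ?_ (not_le.mp h3).le
        refine le_trans (card_le_card ?_) (card_image_le (f := fun A => A \ H))
        intro p hp
        rw [mem_filter] at hp
        obtain ⟨A, hA, rfl⟩ := mem_image.mp hp.1
        rw [mem_filter] at hA
        exact mem_image_of_mem _ (mem_filter.mpr ⟨hA.1, hA.2.1,
          union_subset hA.2.2 (hp.2.2.trans sdiff_subset)⟩)
      · have : sparse_deg (sparse_pet G H j) H' (j - H.card) = 0 := by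
          rw [sparse_deg, card_eq_zero, filter_eq_empty_iff]
          intro p hp hc
          obtain ⟨A, -, rfl⟩ := mem_image.mp hp
          exact hd (disjoint_sdiff.mono_right hc.2)
        omega
    omega
  · refine Nat.add_le_add_left ?_ _
    rw [hcard]
    calc b * B ^ (k - 1) = sparse_th b B (j - H.card) * B ^ (k - (j - H.card)) := by
          rw [sparse_th, show k - 1 = j - H.card - 1 + (k - (j - H.card)) by omega, pow_add]
          ring
      _ ≤ _ := Nat.mul_le_mul_right _ hth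

theorem sparse_main {Ω : Type} (S : Finset Ω) (hit : Ω → L → Prop)
    [∀ x l, Decidable (hit x l)] (χ : Ω → ℝ) (hB : B = 4 * k * b) (hb1 : 1 ≤ b) (hB1 : 1 ≤ B)
    {η ζ : ℝ} (hη : 0 ≤ η) (hζ : 1 ≤ ζ) (hζ2 : ζ ^ (b * B ^ (k - 1)) + ζ ≤ ζ ^ (b * B ^ (k - 1) + 1))
    (h0 : ∀ G : Finset (Finset L), (∀ C ∈ G, C ⊆ Λ ∧ C.card ≤ k) →
      G.card ≤ 2 * Λ.card * B ^ (k - 1) → ∀ Y ⊆ Λ,
        |∑ x ∈ S.filter (fun x => (∀ C ∈ G, ∃ l ∈ C, hit x l) ∧ ∀ l ∈ Y, ¬ hit x l), χ x| ≤ η)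
    (n : ℕ) : ∀ (G O : Finset (Finset L)) (Y : Finset L) (e : ℕ), sparse_Inv Λ k b B G →
      (∀ C ∈ O, C ⊆ Λ ∧ C.card ≤ k) → Y ⊆ Λ →
      2 * (2 * Λ.card * B ^ (k - 1)) ≤ 2 * sparse_wt k B G + e → e + O.card ≤ n →
      |∑ x ∈ S.filter (fun x => ((∀ C ∈ G, ∃ l ∈ C, hit x l) ∧ ∀ l ∈ Y, ¬ hit x l) ∧
        ∀ C ∈ O, ∃ l ∈ C, hit x l), χ x| ≤ η * ζ ^ e := by
  induction n using Nat.strong_induction_on with
  | _ n ih =>
  intro G O Y e hG hO hY he hn
  have hle : η ≤ η * ζ ^ e := le_mul_of_one_le_right hη (one_le_pow₀ hζ)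
  rcases O.eq_empty_or_nonempty with rfl | ⟨C, hC⟩
  · simp only [notMem_empty, false_imp_iff, implies_true, and_true]
    refine (h0 G (fun C hC => (hG.mem C hC).2) (le_trans ?_ (sparse_cap hB hG)) Y hY).trans hle
    rw [card_eq_sum_ones]
    exact sum_le_sum fun A _ => Nat.one_le_pow _ _ hB1
  by_cases hex : ∃ j H, sparse_fl b B G H j
  · obtain ⟨H, j, hHΛ, ⟨hI1, hw1⟩, hI2, hw2⟩ := sparse_flower hB hb1 hB1 hG hex
    obtain ⟨D, hD⟩ : ∃ D, D = b * B ^ (k - 1) := ⟨_, rfl⟩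
    have hD1 : 1 ≤ D := hD ▸ Nat.mul_pos hb1 (Nat.pow_pos hB1)
    have hc2 := sparse_cap hB hI2
    rw [← hD] at hw2 hζ2
    obtain ⟨d, rfl⟩ : ∃ d, e = d + D := ⟨e - D, by omega⟩
    have r1 := ih (n - 1) (by omega) _ O Y (d + D - 1) hI1 hO hY (by omega) (by omega)
    have r2 := ih (n - 1) (by omega) _ O (Y ∪ H) d hI2 hO (union_subset hY hHΛ) (by omega)
      (by omega)
    rw [← sum_filter_add_sum_filter_not _ fun x => ∃ l ∈ H, hit x l, filter_filter, filter_filter]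
    refine (abs_add_le _ _).trans ((add_le_add (le_trans (le_of_eq ?_) r1)
      (le_trans (le_of_eq ?_) r2)).trans ?_)
    · congr 2
      refine filter_congr fun x _ => ?_
      rw [sparse_add_hit G {H} (hit x)]
      simp only [mem_singleton, forall_eq]
      exact ⟨fun h => ⟨⟨⟨h.1.1.1, h.2⟩, h.1.1.2⟩, h.1.2⟩, fun h => ⟨⟨⟨h.1.1.1, h.1.2⟩, h.2⟩, h.1.1.2⟩⟩
    · congr 2
      refine filter_congr fun x _ => ?_
      rw [sparse_add_hit G _ (hit x)]
      constructor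
      · rintro ⟨⟨⟨h1, h2⟩, h3⟩, h4⟩
        refine ⟨⟨⟨h1, fun p hp => ?_⟩, fun l hl => ?_⟩, h3⟩
        · obtain ⟨A, hA, rfl⟩ := mem_image.mp hp
          obtain ⟨l, hl, hx⟩ := h1 A (mem_filter.mp hA).1
          exact ⟨l, mem_sdiff.mpr ⟨hl, fun hlH => h4 ⟨l, hlH, hx⟩⟩, hx⟩
        · rcases mem_union.mp hl with h | h
          · exact h2 l h
          · exact fun hx => h4 ⟨l, h, hx⟩
      · rintro ⟨⟨⟨h1, -⟩, h2⟩, h3⟩
        exact ⟨⟨⟨h1, fun l hl => h2 l (mem_union_left _ hl)⟩, h3⟩,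
          fun ⟨l, hl, hx⟩ => h2 l (mem_union_right _ hl) hx⟩
    · rw [← mul_add]
      refine mul_le_mul_of_nonneg_left ?_ hη
      obtain ⟨D', rfl⟩ : ∃ D', D = D' + 1 := ⟨D - 1, by omega⟩
      have h1 : ζ ^ D' + 1 ≤ ζ ^ (D' + 1) := by
        refine le_of_mul_le_mul_right ?_ (lt_of_lt_of_le one_pos hζ)
        rw [add_mul, one_mul, ← pow_succ, ← pow_succ]
        exact hζ2
      rw [show d + (D' + 1) - 1 = d + D' by omega, pow_add, pow_add ζ d]
      have h2 : 0 ≤ ζ ^ d := by positivity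
      nlinarith
  have hcard : (O.erase C).card + 1 = O.card := card_erase_add_one hC
  have hO' : ∀ C' ∈ O.erase C, C' ⊆ Λ ∧ C'.card ≤ k := fun C' h => hO C' (mem_of_mem_erase h)
  have hsplit : ∀ f : L → Prop, (∀ C' ∈ O, ∃ l ∈ C', f l) ↔
      (∃ l ∈ C, f l) ∧ ∀ C' ∈ O.erase C, ∃ l ∈ C', f l := by
    intro f
    conv_lhs => rw [← insert_erase hC]
    exact forall_mem_insert _ _ _
  by_cases hCG : ∃ A ∈ G, A ⊆ C
  · obtain ⟨A, hA, hAC⟩ := hCG
    refine le_trans (le_of_eq ?_) (ih (n - 1) (by omega) G (O.erase C) Y e hG hO' hY he (by omega))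
    congr 2
    refine filter_congr fun x _ => ?_
    rw [hsplit (hit x)]
    refine ⟨fun h => ⟨h.1, h.2.2⟩, fun h => ⟨h.1, ?_, h.2⟩⟩
    obtain ⟨l, hl, hx⟩ := h.1.1 A hA
    exact ⟨l, hAC hl, hx⟩
  rcases C.eq_empty_or_nonempty with rfl | hCne
  · rw [filter_eq_empty_iff.mpr, sum_empty, abs_zero]
    · exact hη.trans hle
    · intro x _ h
      obtain ⟨l, hl, -⟩ := h.2 ∅ hC
      exact notMem_empty l hl
  push Not at hCG hex
  obtain ⟨hI, hw⟩ := sparse_one hB hB1 hG hCne (hO C hC).1 (hO C hC).2 hCG (hex _)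
  refine le_trans (le_of_eq ?_)
    (ih (n - 1) (by omega) _ (O.erase C) Y e hI hO' hY (by omega) (by omega))
  congr 2
  refine filter_congr fun x _ => ?_
  rw [hsplit (hit x), sparse_add_hit G {C} (hit x)]
  simp only [mem_singleton, forall_eq]
  exact ⟨fun h => ⟨⟨⟨h.1.1, h.2.1⟩, h.1.2⟩, h.2.2⟩, fun h => ⟨⟨h.1.1.1, h.1.2⟩, h.1.1.2, h.2⟩⟩

theorem sparse_num {k : ℕ} (hk : 1 ≤ k) :
    64 * (4096 * k ^ 3) ^ (k - 1) + 1 ≤ 2 ^ (16 * k ^ 2) := by
  have h1 : 4096 * k ^ 3 ≤ 2 ^ (12 + 3 * k) := by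
    have h2 : k ≤ 2 ^ k := Nat.lt_two_pow_self.le
    rw [pow_add, mul_comm 3 k, pow_mul]
    exact Nat.mul_le_mul (by norm_num) (Nat.pow_le_pow_left h2 3)
  have h3 : (4096 * k ^ 3) ^ (k - 1) ≤ 2 ^ ((12 + 3 * k) * (k - 1)) := by
    rw [pow_mul]
    exact Nat.pow_le_pow_left h1 _
  have h4 : 1 ≤ 2 ^ ((12 + 3 * k) * (k - 1)) := Nat.one_le_two_pow
  have h5 : 7 + (12 + 3 * k) * (k - 1) ≤ 16 * k ^ 2 := by
    obtain ⟨m, rfl⟩ : ∃ m, k = m + 1 := ⟨k - 1, by omega⟩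
    rw [Nat.add_sub_cancel]
    nlinarith
  refine le_trans ?_ (Nat.pow_le_pow_right (by norm_num) h5)
  rw [pow_add]
  omega

end Aux

theorem sparsify {Ω L : Type} [DecidableEq L] (S : Finset Ω) (hit : Ω → L → Prop)
    [∀ x l, Decidable (hit x l)] (χ : Ω → ℝ) (Λ : Finset L) (k : ℕ) (hk : 1 ≤ k) (η : ℝ)
    (h0 : ∀ G : Finset (Finset L), (∀ C ∈ G, C ⊆ Λ ∧ C.card ≤ k) →
      G.card ≤ 2 * Λ.card * (4096 * k ^ 3) ^ (k - 1) → ∀ Y ⊆ Λ,
        |∑ x ∈ S.filter (fun x => (∀ C ∈ G, ∃ l ∈ C, hit x l) ∧ ∀ l ∈ Y, ¬ hit x l), χ x| ≤ η)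
    (F : Finset (Finset L)) (hF : ∀ C ∈ F, C ⊆ Λ ∧ C.card ≤ k) :
    |∑ x ∈ S.filter (fun x => ∀ C ∈ F, ∃ l ∈ C, hit x l), χ x| ≤
      η * Real.exp ((Λ.card : ℝ) / 16) := by
  have hη : 0 ≤ η := (abs_nonneg _).trans (h0 ∅ (by simp) (by simp) ∅ (empty_subset _))
  obtain ⟨B, hB⟩ : ∃ B, B = 4096 * k ^ 3 := ⟨_, rfl⟩
  have hnum := sparse_num hk
  rw [← hB] at h0 hnum
  have hB1 : 1 ≤ B := hB ▸ Nat.mul_pos (by norm_num) (Nat.pow_pos hk)
  obtain ⟨T, hT⟩ : ∃ T : ℕ, T = 64 * B ^ (k - 1) := ⟨_, rfl⟩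
  have hT0 : (0 : ℝ) < T := by
    have : 0 < T := hT ▸ Nat.mul_pos (by norm_num) (Nat.pow_pos hB1)
    exact_mod_cast this
  have hi : (0 : ℝ) < 1 / T := by positivity
  have hζ : (1 : ℝ) ≤ 1 + 1 / T := by linarith
  have h2 : (2 : ℝ) ≤ (1 + 1 / T) ^ T := by
    have := one_add_mul_le_pow (a := (1 : ℝ) / T) (by linarith) T
    rw [mul_one_div_cancel hT0.ne'] at this
    linarith
  have h3 : (T : ℝ) + 1 ≤ (1 + 1 / T) ^ (1024 * k ^ 2 * B ^ (k - 1)) := by
    rw [show 1024 * k ^ 2 * B ^ (k - 1) = T * (16 * k ^ 2) by rw [hT]; ring, pow_mul]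
    refine le_trans ?_ (pow_le_pow_left₀ (by norm_num) h2 _)
    rw [← hT] at hnum
    exact_mod_cast hnum
  have hζ2 : (1 + 1 / T : ℝ) ^ (1024 * k ^ 2 * B ^ (k - 1)) + (1 + 1 / T) ≤
      (1 + 1 / T) ^ (1024 * k ^ 2 * B ^ (k - 1) + 1) := by
    rw [pow_succ (1 + 1 / T : ℝ)]
    have h4 := mul_le_mul_of_nonneg_right h3 hi.le
    rw [add_mul, mul_one_div_cancel hT0.ne', one_mul] at h4
    linarith
  have hI : sparse_Inv Λ k (1024 * k ^ 2) B (∅ : Finset (Finset L)) :=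
    ⟨by simp, by simp, fun H _ j _ => by simp [sparse_deg]⟩
  have key := sparse_main S hit χ (b := 1024 * k ^ 2) (by rw [hB]; ring)
    (Nat.mul_pos (by norm_num) (Nat.pow_pos hk)) hB1 hη hζ hζ2 h0 _ ∅ F ∅
    (2 * (2 * Λ.card * B ^ (k - 1))) hI hF (empty_subset _) (Nat.le_add_left _ _) le_rfl
  simp only [notMem_empty, false_imp_iff, implies_true, true_and] at key
  refine key.trans (mul_le_mul_of_nonneg_left ?_ hη)
  have h5 : (1 + 1 / T : ℝ) ≤ Real.exp (1 / T) := by linarith [Real.add_one_le_exp (1 / (T : ℝ))]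
  refine (pow_le_pow_left₀ (by linarith) h5 _).trans (le_of_eq ?_)
  rw [← Real.exp_nat_mul]
  congr 1
  have h6 : (0 : ℝ) < (B : ℝ) ^ (k - 1) := by
    have : (0 : ℝ) < B := by exact_mod_cast hB1
    positivity
  rw [hT]
  push_cast
  field_simp
  ring

end Vale.Agent.P336
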